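import Vale.Agent.P069.JT.Defs
import Mathlib.Analysis.Convex.Cone.Extension
attribute [-instance] ProperSMul.toContinuousSMul IsTopologicalTorsor.toContinuousSMul IdemSemiring.toCanonicallyOrderedAdd IdemSemiring.toMulLeftMono IdemSemiring.toMulRightMono AddQuantale.instAddLeftMono AddQuantale.instAddRightMono Quantale.instMulLeftMono Quantale.instMulRightMono FiniteDimensional.rclike_to_real IsScalarTower.complexToReal FiniteDimensional.complexToReal

/-!
# Property (β) implies asymptotic uniform convexity
-/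

open Filter Topology

namespace Vale.Agent.P069.JT

variable {X : Type*} [NormedAddCommGroup X] [NormedSpace ℝ X]

/-- Norming functionals for an equivalent norm. -/
theorem exists_norming {N : Seminorm ℝ X} {C : ℝ} (hN : ∀ x, N x ≤ C * ‖x‖) (x : X) :
    ∃ φ : StrongDual ℝ X, φ x = N x ∧ ∀ z, φ z ≤ N z := by
  rcases eq_or_ne x 0 with rfl | hx
  · exact ⟨0, by simp, fun z => by simp⟩
  obtain ⟨g, hg1, hg2⟩ := exists_extension_of_le_sublinear
    (LinearPMap.mkSpanSingleton (K := ℝ) (L := ℝ) x (N x) hx) N
    (fun c hc z => by rw [map_smul_eq_mul, Real.norm_of_nonneg hc.le])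
    (fun y z => map_add_le_add N y z) (by
      rintro ⟨z, hz⟩
      obtain ⟨c, rfl⟩ := Submodule.mem_span_singleton.1 hz
      have h1 : (LinearPMap.mkSpanSingleton (K := ℝ) (L := ℝ) x (N x) hx) ⟨c • x, hz⟩ = c * N x :=
        LinearPMap.mkSpanSingleton'_apply _ _ _ _ _
      rw [h1]
      change c * N x ≤ N (c • x)
      rw [map_smul_eq_mul]
      exact mul_le_mul_of_nonneg_right (le_abs_self c) (apply_nonneg N x))
  refine ⟨LinearMap.mkContinuous g C fun z => ?_, ?_, hg2⟩
  · rw [Real.norm_eq_abs, abs_le]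
    constructor
    · have := hg2 (-z)
      rw [map_neg, map_neg_eq_map] at this
      have := hN z
      linarith
    · exact (hg2 z).trans (hN z)
  · have := hg1 ⟨x, Submodule.mem_span_singleton_self x⟩
    rw [LinearPMap.mkSpanSingleton_apply] at this
    exact this

theorem aucRenormable_of_beta (h : BetaRenormable X) : AUCRenormable X := by
  classical
  obtain ⟨N, ⟨c, C, hc, hC, hN⟩, hB⟩ := h
  refine ⟨N, ⟨c, C, hc, hC, hN⟩, fun t ht => ?_⟩
  obtain ⟨δ, hδ, hB⟩ := hB (t / 2) (by positivity)
  set η : ℝ := min δ 1 with hη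
  have hη0 : 0 < η := lt_min hδ one_pos
  have hη1 : η ≤ 1 := min_le_right _ _
  have hηδ : η ≤ δ := min_le_left _ _
  choose φ hφ1 hφ2 using exists_norming (fun x => (hN x).2)
  refine lt_of_lt_of_le (b := ((η / 2 : ℝ) : EReal)) (by exact_mod_cast half_pos hη0) ?_
  refine le_iInf fun x => ?_
  have hx : N x.1 = 1 := x.2
  by_contra hcon
  push Not at hcon
  -- bad directions in every cofinite subspace
  have hbad : ∀ F : Submodule ℝ X, IsCofinite F → ∃ y ∈ F, N y = 1 ∧
      N (x.1 + t • y) < 1 + η := by
    intro F hF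
    by_contra hno
    push Not at hno
    have h1 : ((η / 2 : ℝ) : EReal) ≤ ⨆ F : {F : Submodule ℝ X // IsCofinite F},
        ⨅ y : {y : X // y ∈ F.1 ∧ N y = 1}, ((N (x.1 + t • y.1) - 1 : ℝ) : EReal) := by
      refine le_iSup_of_le ⟨F, hF⟩ ?_
      refine le_iInf fun y => ?_
      have h2 := hno y.1 y.2.1 y.2.2
      have h3 : η / 2 ≤ N (x.1 + t • y.1) - 1 := by linarith
      exact_mod_cast h3
    exact absurd h1 (not_le.2 hcon)
  -- a sequence of bad directions, each in the kernel of the earlier norming functionals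
  obtain ⟨y, hy1, hy2⟩ := exists_seq_of_forall_finset_exists
    (fun y : X => N y = 1 ∧ N (x.1 + t • y) < 1 + η ∧ φ x.1 y = 0)
    (fun y z : X => φ y z = 0) (by
      intro s _
      let g : X →ₗ[ℝ] ((insert x.1 s : Finset X) → ℝ) :=
        LinearMap.pi fun z => (φ z.1).toLinearMap
      have hker : ∀ y : X, y ∈ LinearMap.ker g ↔ ∀ z ∈ insert x.1 s, φ z y = 0 := by
        intro y
        rw [LinearMap.mem_ker]
        constructor
        · intro h z hz
          have h1 : g y ⟨z, hz⟩ = 0 := by rw [h]; rfl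
          exact h1
        · intro h
          ext z
          exact h z.1 z.2
      have hcof : IsCofinite (LinearMap.ker g) := by
        constructor
        · have : (LinearMap.ker g : Set X) = ⋂ z ∈ insert x.1 s, (φ z) ⁻¹' {0} := by
            ext y
            simp only [SetLike.mem_coe, Set.mem_iInter, Set.mem_preimage, Set.mem_singleton_iff]
            exact hker y
          rw [this]
          exact isClosed_biInter fun z _ => isClosed_singleton.preimage (φ z).continuous
        · exact LinearEquiv.finiteDimensional g.quotKerEquivRange.symm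
      obtain ⟨y, hyF, hyN, hyx⟩ := hbad _ hcof
      rw [hker] at hyF
      exact ⟨y, ⟨hyN, hyx, hyF _ (Finset.mem_insert_self _ _)⟩,
        fun z hz => hyF z (Finset.mem_insert_of_mem hz)⟩)
  have hsep : ∀ m n, m < n → 1 ≤ N (y m - y n) := by
    intro m n hmn
    have h1 := hφ2 (y m) (y m - y n)
    rw [map_sub, hφ1, hy2 m n hmn, (hy1 m).1, sub_zero] at h1
    exact h1
  have hsep' : ∀ m n, m ≠ n → 1 ≤ N (y m - y n) := by
    intro m n hmn
    rcases lt_or_gt_of_ne hmn with h | h
    · exact hsep m n h
    · rw [map_sub_rev]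
      exact hsep n m h
  set r : ℝ := (1 + η)⁻¹ with hr
  have hr0 : 0 < r := by positivity
  have hr1 : r * (1 + η) = 1 := inv_mul_cancel₀ (by positivity)
  have hr2 : 1 / 2 ≤ r := by nlinarith
  obtain ⟨i, hi⟩ := hB x.1 (fun i => r • (x.1 + t • y i)) hx.le (fun i => by
      rw [map_smul_eq_mul, Real.norm_of_nonneg hr0.le]
      exact (mul_le_mul_of_nonneg_left (hy1 i).2.1.le hr0.le).trans hr1.le) (fun i j hij => by
      have h1 : r • (x.1 + t • y i) - r • (x.1 + t • y j) = (r * t) • (y i - y j) := by
        rw [← smul_sub, add_sub_add_left_eq_sub, ← smul_sub, smul_smul]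
      rw [h1, map_smul_eq_mul, Real.norm_of_nonneg (by positivity)]
      have h2 := hsep' i j hij
      have h3 : t / 2 ≤ r * t := by nlinarith
      nlinarith [mul_pos hr0 ht])
  have h1 := hφ2 x.1 ((1 / 2 : ℝ) • (x.1 + r • (x.1 + t • y i)))
  rw [map_smul, map_add, map_smul, map_add, map_smul, (hy1 i).2.2, hφ1, hx] at h1
  simp only [smul_eq_mul, mul_zero, add_zero, mul_one] at h1
  have h2 : 1 - η < r := by
    have : (1 - η) * (1 + η) < r * (1 + η) := by rw [hr1]; nlinarith
    exact lt_of_mul_lt_mul_right this (by positivity)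
  linarith

end Vale.Agent.P069.JT
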