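import Vale.Agent.P069.Defs

namespace Vale.Agent.P069.JT

/-- The modulus of asymptotic uniform smoothness of `N` at `t`, as an extended real number. -/
noncomputable def ausModulus {X : Type*} [NormedAddCommGroup X] [NormedSpace ℝ X]
    (N : Seminorm ℝ X) (t : ℝ) : EReal :=
  ⨆ x : {x : X // N x = 1}, ⨅ F : {F : Submodule ℝ X // IsCofinite F},
    ⨆ y : {y : X // y ∈ F.1 ∧ N y = 1}, ((N (x.1 + t • y.1) - 1 : ℝ) : EReal)

/-- `N` is asymptotically uniformly smooth: its modulus at `t` is `o(t)` as `t → 0+`. -/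
def IsAUS {X : Type*} [NormedAddCommGroup X] [NormedSpace ℝ X] (N : Seminorm ℝ X) : Prop :=
  ∀ ε : ℝ, 0 < ε → ∃ δ : ℝ, 0 < δ ∧ ∀ t : ℝ, 0 < t → t < δ →
    ausModulus N t ≤ ((ε * t : ℝ) : EReal)

/-- `N` has property `(β)` of Rolewicz (in Kutzarova's form): for every `ε > 0` there is `δ > 0`
such that for every `x` and every `ε`-separated sequence `y` in the unit ball of `N`, some midpoint
of `x` and `y i` has norm at most `1 - δ`. -/
def IsBeta {X : Type*} [NormedAddCommGroup X] [NormedSpace ℝ X] (N : Seminorm ℝ X) : Prop :=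
  ∀ ε : ℝ, 0 < ε → ∃ δ : ℝ, 0 < δ ∧ ∀ (x : X) (y : ℕ → X), N x ≤ 1 → (∀ i, N (y i) ≤ 1) →
    (∀ i j, i ≠ j → ε ≤ N (y i - y j)) → ∃ i, N ((1 / 2 : ℝ) • (x + y i)) ≤ 1 - δ

/-- `X` has an equivalent norm with property `(β)`. -/
def BetaRenormable (X : Type*) [NormedAddCommGroup X] [NormedSpace ℝ X] : Prop :=
  ∃ N : Seminorm ℝ X, IsEquivNorm N ∧ IsBeta N

end Vale.Agent.P069.JT
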