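import Vale.Agent.P069.JT.Key
attribute [-instance] ProperSMul.toContinuousSMul IsTopologicalTorsor.toContinuousSMul IdemSemiring.toCanonicallyOrderedAdd IdemSemiring.toMulLeftMono IdemSemiring.toMulRightMono AddQuantale.instAddLeftMono AddQuantale.instAddRightMono Quantale.instMulLeftMono Quantale.instMulRightMono FiniteDimensional.rclike_to_real IsScalarTower.complexToReal FiniteDimensional.complexToReal

/-!
# Two-sided estimates in the dual of the James-tree space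
-/

open Filter Topology TopologicalSpace Finset
open scoped ENNReal

namespace Vale.Agent.P069.JT

theorem key_decJ {D : Finset (List ℕ)} (h0 : [] ∈ D) (hD : ∀ k t, k :: t ∈ D → t ∈ D) (n : ℕ)
    (f g : HH) (hf : ∀ t, t ∉ D → f t = 0) {a c : ℝ} (ha : 0 ≤ a) (hc : 0 ≤ c) :
    ∃ h₁ h₂ : HH, g - res D g = h₁ - h₂ ∧ res D h₁ = 0 ∧ res D h₂ = 0 ∧
      ‖toJ n (a • f + c • h₁)‖ ^ 2 ≤ a ^ 2 * ‖toJ n f‖ ^ 2 + 3 * c ^ 2 * ‖toJ n g‖ ^ 2 ∧
      ‖toJ n (a • f + c • h₂)‖ ^ 2 ≤ a ^ 2 * ‖toJ n f‖ ^ 2 + 3 * c ^ 2 * ‖toJ n g‖ ^ 2 := by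
  classical
  set g' : HH := g - res D g with hg'
  have hg'a : ∀ t, g' t = if t ∈ D then 0 else g t := by
    intro t
    have : g' t = g t - res D g t := rfl
    rw [this, res_apply]
    split_ifs <;> ring
  set G : List ℕ → ℝ := fun t => cum n g' t with hG
  have hG1 : ∀ t, G t = dif n g (vv D t, t) := by
    intro t
    have h1 : SS n g' t = (SS n g - SS n (res D g)) t := by rw [hg', map_sub]
    have h2 : (SS n g - SS n (res D g)) t = cum n g t - cum n (res D g) t := rfl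
    rw [dif]
    simp only
    rw [← cum_res hD, ← h2, ← h1, SS_apply]
  have hGD : ∀ t ∈ D, G t = 0 := by
    intro t ht
    rw [hG1, vv_of_mem ht, dif]
    ring
  have hGcons : ∀ k t, G (k :: t) = G t + if t.length < n then g' (k :: t) else 0 :=
    fun k t => rfl
  choose τ hτ1 hτ2 using fun v => exists_sign (cum n f) (cum n f v) a (c * MM D n g v) v
  set σ : List ℕ → ℝ := fun t => τ (vv D t) with hσ
  have hσ1 : ∀ t, σ t = 1 ∨ σ t = -1 := fun t => hτ1 _
  have hσσ : ∀ t, σ t * σ t = 1 := fun t => by rcases hσ1 t with h | h <;> rw [h] <;> norm_num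
  have hσabs : ∀ t x, |σ t * x| = |x| := fun t x => by
    rw [abs_mul]; rcases hσ1 t with h | h <;> rw [h] <;> simp
  have gen : ∀ e : ℝ, (e = 1 ∨ e = -1) → ∀ x : HH, (∀ t, |x t| ≤ |g' t|) →
      ∃ h : HH, (∀ t, h t = incr n (fun t => -(σ t * max (-(e * (σ t * G t))) 0)) x t) ∧
        res D h = 0 ∧
        ‖toJ n (a • f + c • h)‖ ^ 2 ≤ a ^ 2 * ‖toJ n f‖ ^ 2 + 3 * c ^ 2 * ‖toJ n g‖ ^ 2 := by
    intro e he x hx
    set H : List ℕ → ℝ := fun t => -(σ t * max (-(e * (σ t * G t))) 0) with hH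
    have habse : ∀ y : ℝ, |e * y| = |y| := fun y => by
      rw [abs_mul]; rcases he with h | h <;> rw [h] <;> simp
    have hHD : ∀ t ∈ D, H t = 0 := by
      intro t ht
      simp only [hH, hGD t ht]
      simp
    have hHle : ∀ t, |H t| ≤ |G t| := by
      intro t
      simp only [hH]
      rw [abs_neg, hσabs]
      have h1 := abs_max_sub_max_le_abs (-(e * (σ t * G t))) 0 0
      rw [max_self, sub_zero, sub_zero, abs_neg, habse, hσabs] at h1
      exact h1
    have hlip : ∀ s t, s <:+ t → s ∉ D → |H t - H s| ≤ |G t - G s| := by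
      intro s t hst hs
      have hσst : σ s = σ t := by
        simp only [hσ]
        rw [vv_eq_of_not_mem hD hst hs]
      simp only [hH]
      rw [hσst, neg_sub_neg, ← mul_sub, hσabs, abs_sub_comm]
      have h1 := abs_max_sub_max_le_abs (-(e * (σ t * G t))) (-(e * (σ t * G s))) 0
      rw [neg_sub_neg, abs_sub_comm (e * (σ t * G s)), ← mul_sub, ← mul_sub, habse, hσabs] at h1
      exact h1
    have hdiff : ∀ k t, |H (k :: t) - H t| ≤ |G (k :: t) - G t| := by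
      intro k t
      by_cases ht : t ∈ D
      · rw [hHD t ht, hGD t ht, sub_zero, sub_zero]
        exact hHle _
      · exact hlip t (k :: t) (List.suffix_cons k t) ht
    have hinc : ∀ t, |incr n H x t| ≤ |g' t| := by
      intro t
      cases t with
      | nil => exact hx []
      | cons k t =>
        rw [incr]
        by_cases h : t.length < n
        · rw [if_pos h]
          have h1 := hdiff k t
          rw [hGcons, if_pos h, add_sub_cancel_left] at h1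
          exact h1
        · rw [if_neg h]
          exact hx _
    have hmem : Memℓp (incr n H x) 2 := by
      have hm : Memℓp (fun t => ‖g' t‖) 2 := memℓp_norm_iff.mpr (lp.memℓp g')
      exact hm.mono hinc
    have hstab : ∀ k t, ¬ t.length < n → H (k :: t) = H t := by
      intro k t h
      have h1 := hdiff k t
      rw [hGcons, if_neg h, add_zero, sub_self, abs_zero] at h1
      exact sub_eq_zero.mp (abs_eq_zero.mp (le_antisymm h1 (abs_nonneg _)))
    have hg'g : ∀ t, |g' t| ≤ |g t| := by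
      intro t
      rw [hg'a]
      split_ifs
      · rw [abs_zero]; exact abs_nonneg _
      · exact le_rfl
    have hzero : ∀ t ∈ D, incr n H x t = 0 := by
      intro t ht
      have h1 := hinc t
      rw [hg'a, if_pos ht, abs_zero] at h1
      exact abs_eq_zero.mp (le_antisymm h1 (abs_nonneg _))
    set h : HH := ⟨incr n H x, hmem⟩ with hh
    have hcumh : ∀ t, cum n h t = H t := fun t => cum_incr (hHD [] h0) hstab t
    refine ⟨h, fun t => rfl, ?_, ?_⟩
    · ext t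
      rw [res_apply]
      split_ifs with h
      · exact hzero t h
      · rfl
    · rw [norm_toJ_sq, norm_toJ_sq, norm_toJ_sq]
      have r1 : ‖RR n (a • f + c • h)‖ ^ 2 ≤ a ^ 2 * ‖RR n f‖ ^ 2 + c ^ 2 * ‖RR n g‖ ^ 2 := by
        have s1 := ((HH_hasSum_sq (RR n f)).mul_left (a ^ 2)).add
          ((HH_hasSum_sq (RR n g)).mul_left (c ^ 2))
        refine hasSum_le (fun t => ?_) (HH_hasSum_sq (RR n (a • f + c • h))) s1
        have e1 : (a • f + c • h) t = a * f t + c * h t := rfl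
        rw [RR_apply, RR_apply, RR_apply, e1]
        split_ifs with hcnt
        · simp
        by_cases ht : t ∈ D
        · have e2 : h t = 0 := hzero t ht
          rw [e2]
          have := mul_nonneg (sq_nonneg c) (sq_nonneg (g t))
          nlinarith
        · rw [hf t ht]
          have h2 : (h t) ^ 2 ≤ (g t) ^ 2 := sq_le_sq.mpr ((hinc t).trans (hg'g t))
          have h3 := mul_le_mul_of_nonneg_left h2 (sq_nonneg c)
          nlinarith
      have r2 : ‖SJ n (a • f + c • h)‖ ^ 2 ≤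
          a ^ 2 * ‖SJ n f‖ ^ 2 + 3 * c ^ 2 * ‖SJ n g‖ ^ 2 := by
        refine key_SJ h0 hD ha hc (σ := τ) (fun t => cum_supp n hf t) hτ1
          (fun v s => hτ2 v s) (fun t ht => ?_) (fun t => ?_) (fun t => ?_)
          (fun s t hst hs => ?_)
        · rw [hcumh, hHD t ht]
        · rw [hcumh]
          simp only [hH]
          have h2 : 0 ≤ max (-(e * (σ t * G t))) 0 := le_max_right _ _
          have h3 : τ (vv D t) * -(σ t * max (-(e * (σ t * G t))) 0) =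
              -((σ t * σ t) * max (-(e * (σ t * G t))) 0) := by
            simp only [hσ]; ring
          rw [h3, hσσ]
          linarith
        · rw [hcumh, ← hG1]
          exact hHle t
        · rw [hcumh, hcumh]
          have h1 := hlip s t hst hs
          have h2 : G t - G s = dif n g (s, t) := by
            rw [hG1, hG1, dif, dif, dif]
            simp only
            rw [vv_eq_of_not_mem hD hst hs]
            ring
          rwa [h2] at h1
      have r3 := mul_nonneg (sq_nonneg c) (sq_nonneg ‖RR n g‖)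
      nlinarith
  obtain ⟨h₁, h1a, h1b, h1c⟩ := gen 1 (Or.inl rfl) g' (fun t => le_rfl)
  obtain ⟨h₂, h2a, h2b, h2c⟩ := gen (-1) (Or.inr rfl) 0 (fun t => by
    have : (0 : HH) t = 0 := rfl
    rw [this, abs_zero]; exact abs_nonneg _)
  refine ⟨h₁, h₂, ?_, h1b, h2b, h1c, h2c⟩
  ext t
  have e1 : (h₁ - h₂) t = h₁ t - h₂ t := rfl
  rw [e1, h1a, h2a]
  have hmm : ∀ t, -(σ t * max (-(1 * (σ t * G t))) 0) - -(σ t * max (-(-1 * (σ t * G t))) 0)
      = G t := by
    intro t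
    have h3 : max (-(-1 * (σ t * G t))) 0 - max (-(1 * (σ t * G t))) 0 = σ t * G t := by
      rcases le_total 0 (σ t * G t) with h | h
      · rw [max_eq_left (by linarith), max_eq_right (by linarith)]; ring
      · rw [max_eq_right (by linarith), max_eq_left (by linarith)]; ring
    calc _ = σ t * (max (-(-1 * (σ t * G t))) 0 - max (-(1 * (σ t * G t))) 0) := by ring
      _ = G t := by rw [h3, ← mul_assoc, hσσ, one_mul]
  cases t with
  | nil =>
    rw [incr, incr]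
    have : (0 : HH) [] = 0 := rfl
    rw [this, sub_zero]
  | cons k t =>
    rw [incr, incr]
    by_cases h : t.length < n
    · rw [if_pos h, if_pos h]
      have h3 := hmm (k :: t)
      have h4 := hmm t
      have h5 := hGcons k t
      rw [if_pos h] at h5
      linarith
    · rw [if_neg h, if_neg h]
      have : (0 : HH) (k :: t) = 0 := rfl
      rw [this, sub_zero]

/-- Two-sided lower `2`-estimate, and upper `2`-estimate. -/
def Est {X : Type*} [NormedAddCommGroup X] (κ : ℝ) (u y : X) : Prop :=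
  2 * ‖u‖ ^ 2 + κ * ‖y‖ ^ 2 ≤ ‖u + y‖ ^ 2 + ‖u - y‖ ^ 2 ∧ ‖u + y‖ ^ 2 ≤ ‖u‖ ^ 2 + ‖y‖ ^ 2

/-- The estimates hold at `u` in the directions of a cofinite subspace. -/
def TwoEst {X : Type*} [NormedAddCommGroup X] [NormedSpace ℝ X] (κ : ℝ) (u : X) : Prop :=
  ∃ F : Submodule ℝ X, IsCofinite F ∧ ∀ y ∈ F, Est κ u y

section general

variable {E Y : Type*} [AddCommGroup E] [Module ℝ E] [NormedAddCommGroup Y] [NormedSpace ℝ Y]

lemma twoAMUC_case3 {T : E →ₗ[ℝ] Y} (u y : StrongDual ℝ Y) {Q θ : ℝ}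
    (hQ : Q = ‖u‖ ^ 2 + ‖y‖ ^ 2 / 12) (hθ0 : 0 ≤ θ) {f h g : E}
    (hf1 : ‖T f‖ ^ 2 ≤ 1) (hg1 : ‖T g‖ ^ 2 ≤ 1) (hf2 : θ * ‖u‖ ≤ u (T f))
    (hyf : y (T f) = 0) (huh : u (T h) = 0) (hcase : θ * ‖y‖ / 2 ≤ y (T h))
    (hn : ‖T (‖u‖ • f + (‖y‖ / 6) • h)‖ ^ 2 ≤
      ‖u‖ ^ 2 * ‖T f‖ ^ 2 + 3 * (‖y‖ / 6) ^ 2 * ‖T g‖ ^ 2) : θ ^ 2 * Q ≤ ‖u + y‖ ^ 2 := by
  have hQ0 : 0 ≤ Q := by rw [hQ]; positivity
  have ha0 : 0 ≤ ‖u‖ := norm_nonneg _
  have hc0 : 0 ≤ ‖y‖ / 6 := by positivity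
  have hnorm : ‖T (‖u‖ • f + (‖y‖ / 6) • h)‖ ^ 2 ≤ Q := by
    have e1 := mul_le_mul_of_nonneg_left hf1 (sq_nonneg ‖u‖)
    have e2 := mul_le_mul_of_nonneg_left hg1 (show 0 ≤ 3 * (‖y‖ / 6) ^ 2 by positivity)
    have e3 : ‖u‖ ^ 2 + 3 * (‖y‖ / 6) ^ 2 = Q := by rw [hQ]; ring
    linarith
  have e1 : (u + y) (T (‖u‖ • f + (‖y‖ / 6) • h)) = ‖u‖ * u (T f) + (‖y‖ / 6) * y (T h) := by
    rw [add_apply, map_add, map_smul, map_smul, map_add, map_add, map_smul, map_smul,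
      map_smul, map_smul, huh, hyf]
    simp only [smul_eq_mul]
    ring
  have e2 : θ * Q ≤ (u + y) (T (‖u‖ • f + (‖y‖ / 6) • h)) := by
    rw [e1]
    have e3 := mul_le_mul_of_nonneg_left hf2 ha0
    have e4 := mul_le_mul_of_nonneg_left hcase hc0
    have e5 : ‖u‖ * (θ * ‖u‖) + (‖y‖ / 6) * (θ * ‖y‖ / 2) = θ * Q := by
      rw [hQ]; ring
    linarith
  have e6 : θ * Q ≤ ‖u + y‖ * ‖T (‖u‖ • f + (‖y‖ / 6) • h)‖ :=
    e2.trans ((le_abs_self _).trans ((u + y).le_opNorm _))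
  exact twoAMUC_half hQ0 hθ0 hnorm e6

theorem est_ineq {T : E →ₗ[ℝ] Y} (hT : ∀ y, ∃ w, T w = y) {P : E →ₗ[ℝ] E}
    (hP2 : ∀ w, ‖T (P w)‖ ^ 2 + ‖T (w - P w)‖ ^ 2 ≤ ‖T w‖ ^ 2)
    (hkey : ∀ f₀ g : E, ∀ a c : ℝ, 0 ≤ a → 0 ≤ c →
      ∃ h₁ h₂ : E, g - P g = h₁ - h₂ ∧ P h₁ = 0 ∧ P h₂ = 0 ∧
      ‖T (a • P f₀ + c • h₁)‖ ^ 2 ≤ a ^ 2 * ‖T (P f₀)‖ ^ 2 + 3 * c ^ 2 * ‖T g‖ ^ 2 ∧
      ‖T (a • P f₀ + c • h₂)‖ ^ 2 ≤ a ^ 2 * ‖T (P f₀)‖ ^ 2 + 3 * c ^ 2 * ‖T g‖ ^ 2)
    (u y : StrongDual ℝ Y) (hu : ∀ w, u (T (P w)) = u (T w)) (hy : ∀ w, y (T (P w)) = 0) :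
    Est (1 / 12) u y := by
  have hP : ∀ w, ‖T (P w)‖ ≤ ‖T w‖ := fun w => by
    refine le_of_sq_le_sq ?_ (norm_nonneg _)
    have h1 := hP2 w
    have h2 := sq_nonneg ‖T (w - P w)‖
    linarith
  refine ⟨?_, ?_⟩
  · obtain ⟨Q, hQ⟩ : ∃ Q : ℝ, Q = ‖u‖ ^ 2 + ‖y‖ ^ 2 / 12 := ⟨_, rfl⟩
    have hplus : ‖u‖ ≤ ‖u + y‖ := twoAMUC_step hT hP u y hu hy
    have hminus : ‖u‖ ≤ ‖u - y‖ := by
      rw [sub_eq_add_neg]
      exact twoAMUC_step hT hP u (-y) hu (fun w => by rw [neg_apply, hy, neg_zero])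
    have hplus2 : ‖u‖ ^ 2 ≤ ‖u + y‖ ^ 2 := pow_le_pow_left₀ (norm_nonneg _) hplus 2
    have hminus2 : ‖u‖ ^ 2 ≤ ‖u - y‖ ^ 2 := pow_le_pow_left₀ (norm_nonneg _) hminus 2
    have main : ∀ θ : ℝ, 0 ≤ θ → θ < 1 → θ ^ 2 * Q + ‖u‖ ^ 2 ≤ ‖u + y‖ ^ 2 + ‖u - y‖ ^ 2 := by
      intro θ hθ0 hθ1
      obtain ⟨f', hf'1, hf'2⟩ := exists_near_norming u hθ1
      obtain ⟨f₀, rfl⟩ := hT f'
      obtain ⟨g', hg'1, hg'2⟩ := exists_near_norming y hθ1
      obtain ⟨g, rfl⟩ := hT g'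
      have hf1 : ‖T (P f₀)‖ ^ 2 ≤ 1 := pow_le_one₀ (norm_nonneg _) ((hP f₀).trans hf'1)
      have hg1 : ‖T g‖ ^ 2 ≤ 1 := pow_le_one₀ (norm_nonneg _) hg'1
      have hf2 : θ * ‖u‖ ≤ u (T (P f₀)) := by rw [hu]; exact hf'2
      obtain ⟨h₁, h₂, hdec, hr1, hr2, hn1, hn2⟩ := hkey f₀ g ‖u‖ (‖y‖ / 6) (norm_nonneg _)
        (by positivity)
      have hu1 : u (T h₁) = 0 := by rw [← hu, hr1, map_zero, map_zero]
      have hu2 : u (T h₂) = 0 := by rw [← hu, hr2, map_zero, map_zero]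
      have hy12 : y (T h₁) - y (T h₂) = y (T g) := by
        rw [← map_sub, ← map_sub, ← hdec, map_sub, map_sub, hy, sub_zero]
      rcases le_or_gt (θ * ‖y‖ / 2) (y (T h₁)) with hcase | hcase
      · have := twoAMUC_case3 u y hQ hθ0 hf1 hg1 hf2 (hy f₀) hu1 hcase hn1
        linarith
      · have h3 : θ * ‖-y‖ / 2 ≤ (-y) (T h₂) := by
          rw [norm_neg, neg_apply]; linarith
        have := twoAMUC_case3 u (-y) (Q := Q) (by rw [norm_neg]; exact hQ) hθ0 hf1 hg1 hf2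
          (by rw [neg_apply, hy, neg_zero]) hu2 h3 (by rw [norm_neg]; exact hn2)
        rw [← sub_eq_add_neg] at this
        linarith
    have hlim : Tendsto (fun θ : ℝ => θ ^ 2 * Q + ‖u‖ ^ 2) (𝓝[<] 1)
        (𝓝 (1 ^ 2 * Q + ‖u‖ ^ 2)) := by
      have : Continuous fun θ : ℝ => θ ^ 2 * Q + ‖u‖ ^ 2 := by fun_prop
      exact (this.tendsto 1).mono_left nhdsWithin_le_nhds
    have hfin : 1 ^ 2 * Q + ‖u‖ ^ 2 ≤ ‖u + y‖ ^ 2 + ‖u - y‖ ^ 2 := by
      refine le_of_tendsto hlim ?_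
      filter_upwards [Ioo_mem_nhdsLT (show (0 : ℝ) < 1 by norm_num)] with θ hθ
      exact main θ hθ.1.le hθ.2
    rw [hQ] at hfin
    linarith
  · have h1 : ‖u + y‖ ≤ Real.sqrt (‖u‖ ^ 2 + ‖y‖ ^ 2) := by
      refine ContinuousLinearMap.opNorm_le_bound _ (Real.sqrt_nonneg _) fun z => ?_
      obtain ⟨w, rfl⟩ := hT z
      have h2 : (u + y) (T w) = u (T (P w)) + y (T (w - P w)) := by
        rw [add_apply, hu, map_sub, map_sub, hy, sub_zero]
      rw [h2]
      calc ‖u (T (P w)) + y (T (w - P w))‖ ≤ ‖u (T (P w))‖ + ‖y (T (w - P w))‖ :=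
            norm_add_le _ _
        _ ≤ ‖u‖ * ‖T (P w)‖ + ‖y‖ * ‖T (w - P w)‖ :=
            add_le_add (u.le_opNorm _) (y.le_opNorm _)
        _ ≤ Real.sqrt (‖u‖ ^ 2 + ‖y‖ ^ 2) * Real.sqrt (‖T (P w)‖ ^ 2 + ‖T (w - P w)‖ ^ 2) := by
            rw [← Real.sqrt_mul (by positivity)]
            refine Real.le_sqrt_of_sq_le ?_
            nlinarith [sq_nonneg (‖u‖ * ‖T (w - P w)‖ - ‖y‖ * ‖T (P w)‖)]
        _ ≤ Real.sqrt (‖u‖ ^ 2 + ‖y‖ ^ 2) * ‖T w‖ := by
            gcongr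
            rw [Real.sqrt_le_left (norm_nonneg _)]
            exact hP2 w
    calc ‖u + y‖ ^ 2 ≤ Real.sqrt (‖u‖ ^ 2 + ‖y‖ ^ 2) ^ 2 := by gcongr
      _ = _ := Real.sq_sqrt (by positivity)

end general

section space

variable {Y : Type*} [NormedAddCommGroup Y] [NormedSpace ℝ Y]

theorem twoEst_of_support {κ : ℝ} {T : HH →ₗ[ℝ] Y} {D : Finset (List ℕ)}
    (hineq : ∀ u y : StrongDual ℝ Y, (∀ w, u (T (res D w)) = u (T w)) →
      (∀ w, y (T (res D w)) = 0) → Est κ u y)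
    (u : StrongDual ℝ Y) (hu : ∀ w : HH, u (T (res D w)) = u (T w)) : TwoEst κ u := by
  let g : StrongDual ℝ Y →ₗ[ℝ] (D → ℝ) := LinearMap.pi fun t : D =>
    (NormedSpace.inclusionInDoubleDual ℝ Y (T (ee t.1))).toLinearMap
  have hker : ∀ y : StrongDual ℝ Y, y ∈ LinearMap.ker g ↔ ∀ t : D, y (T (ee t.1)) = 0 := by
    intro y
    rw [LinearMap.mem_ker]
    constructor
    · intro h t
      have h1 : g y t = 0 := by rw [h]; rfl
      exact h1
    · intro h
      ext t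
      exact h t
  refine ⟨LinearMap.ker g, ⟨?_, finiteDimensional_quotient_of_ker_le g _ le_rfl⟩, ?_⟩
  · have : (LinearMap.ker g : Set (StrongDual ℝ Y)) = ⋂ t : D,
        (NormedSpace.inclusionInDoubleDual ℝ Y (T (ee t.1))) ⁻¹' {0} := by
      ext y
      simp only [SetLike.mem_coe, Set.mem_iInter, Set.mem_preimage, Set.mem_singleton_iff]
      exact hker y
    rw [this]
    exact isClosed_iInter fun t => isClosed_singleton.preimage
      (NormedSpace.inclusionInDoubleDual ℝ Y (T (ee t.1))).continuous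
  · intro y hy
    rw [hker] at hy
    refine hineq u y hu fun w => ?_
    rw [res_eq, map_sum, map_sum]
    refine Finset.sum_eq_zero fun t ht => ?_
    rw [map_smul, map_smul, hy ⟨t, ht⟩, smul_zero]

theorem dense_twoEst {κ : ℝ} (T : HH ≃L[ℝ] Y) (hT1 : ∀ w, ‖w‖ ≤ ‖T w‖)
    (hres : ∀ D : Finset (List ℕ), [] ∈ D → (∀ k t, k :: t ∈ D → t ∈ D) →
      ∀ w, ‖T (res D w)‖ ≤ ‖T w‖)
    (hineq : ∀ D : Finset (List ℕ), [] ∈ D → (∀ k t, k :: t ∈ D → t ∈ D) →
      ∀ u y : StrongDual ℝ Y, (∀ w, u (T (res D w)) = u (T w)) →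
      (∀ w, y (T (res D w)) = 0) → Est κ u y) :
    Dense {u : StrongDual ℝ Y | TwoEst κ u} := by
  have hsurj : ∀ y, ∃ w, T w = y := fun y => ⟨T.symm y, T.apply_symm_apply y⟩
  rw [Metric.dense_iff]
  intro u r hr
  -- representing vector
  set z : HH := (InnerProductSpace.toDual ℝ HH).symm (u.comp (T : HH →L[ℝ] Y)) with hz
  have hzu : ∀ w : HH, inner ℝ z w = u (T w) := fun w => by
    rw [hz, InnerProductSpace.toDual_symm_apply]
    rfl
  have hsum : Tendsto (fun s : Finset (List ℕ) => ∑ t ∈ s, (lp.single 2 t (z t) : HH)) atTop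
      (𝓝 z) := by
    have h := lp.hasSum_single (p := 2) (by norm_num) z
    rwa [HasSum, SummationFilter.unconditional_filter] at h
  rw [Metric.tendsto_atTop] at hsum
  obtain ⟨s, hs⟩ := hsum (r / 2) (by linarith)
  obtain ⟨D, hsD, h0, hD⟩ := exists_closure s
  have hzD : ‖z - res D z‖ < r / 2 := by
    have h1 := hs D hsD
    rw [dist_comm, dist_eq_norm] at h1
    have h2 : res D z = ∑ t ∈ D, lp.single 2 t (z t) := by
      rw [res_eq]
      refine Finset.sum_congr rfl fun t _ => ?_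
      rw [ee, ← lp.single_smul, smul_eq_mul, mul_one]
    rw [h2]
    exact h1
  -- the truncated functional
  let L : Y →ₗ[ℝ] ℝ := u.toLinearMap.comp
    ((T.toLinearEquiv.toLinearMap.comp (res D)).comp T.symm.toLinearEquiv.toLinearMap)
  have hL : ∀ w : HH, L (T w) = u (T (res D w)) := by
    intro w
    change u (T (res D (T.symm (T w)))) = _
    rw [T.symm_apply_apply]
  let v : StrongDual ℝ Y := LinearMap.mkContinuous L ‖u‖ (by
    intro y
    obtain ⟨w, rfl⟩ := hsurj y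
    rw [hL]
    exact (u.le_opNorm _).trans
      (mul_le_mul_of_nonneg_left (hres D h0 hD w) (norm_nonneg _)))
  have hv : ∀ w : HH, v (T w) = u (T (res D w)) := hL
  refine ⟨v, ?_, ?_⟩
  · rw [Metric.mem_ball, dist_comm, dist_eq_norm]
    refine lt_of_le_of_lt (b := r / 2) ?_ (by linarith)
    refine ContinuousLinearMap.opNorm_le_bound _ (by linarith) fun y => ?_
    obtain ⟨w, rfl⟩ := hsurj y
    have hinner : inner ℝ z (res D w) = inner ℝ (res D z) w := by
      rw [lp.inner_eq_tsum, lp.inner_eq_tsum]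
      refine tsum_congr fun t => ?_
      rw [res_apply, res_apply]
      split_ifs <;> simp
    have h1 : (u - v) (T w) = inner ℝ (z - res D z) w := by
      rw [sub_apply, hv, ← hzu, ← hzu, hinner, inner_sub_left]
    rw [h1]
    refine (norm_inner_le_norm _ _).trans ?_
    exact mul_le_mul hzD.le (hT1 w) (norm_nonneg _) (by linarith)
  · exact twoEst_of_support (T := T.toLinearEquiv.toLinearMap) (hineq D h0 hD) v
      fun w => by
        change v (T (res D w)) = v (T w)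
        rw [hv, hv, res_res]

end space

theorem dense_twoEst_XJ (n : ℕ) : Dense {u : XJ n | TwoEst (1 / 12) u} := by
  refine dense_twoEst (cleJ n) (norm_le_toJ n) (fun D h0 hD w => norm_toJ_res_le h0 hD n w)
    (fun D h0 hD u y hu hy => ?_)
  refine est_ineq (T := toJ n) (P := res D) (toJ_surjective n)
    (fun w => lower_two h0 hD n w) (fun f₀ g a c ha hc => ?_) u y hu hy
  exact key_decJ h0 hD n (res D f₀) g (fun t ht => by rw [res_apply, if_neg ht]) ha hc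

end Vale.Agent.P069.JT
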