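import Vale.Agent.P069.JT.Norm
attribute [-instance] ProperSMul.toContinuousSMul IsTopologicalTorsor.toContinuousSMul IdemSemiring.toCanonicallyOrderedAdd IdemSemiring.toMulLeftMono IdemSemiring.toMulRightMono AddQuantale.instAddLeftMono AddQuantale.instAddRightMono Quantale.instMulLeftMono Quantale.instMulRightMono FiniteDimensional.rclike_to_real IsScalarTower.complexToReal FiniteDimensional.complexToReal

/-!
# The two key inequalities for the James-tree norm
-/

open Filter Topology TopologicalSpace Finset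
open scoped ENNReal

namespace Vale.Agent.P069.JT

section vv

variable {D : Finset (List ℕ)}

lemma vv_suffix (t : List ℕ) : vv D t <:+ t := by
  induction t with
  | nil => exact List.suffix_rfl
  | cons k t ih =>
    by_cases h : k :: t ∈ D
    · rw [vv_of_mem h]
    · rw [vv_of_not_mem h]; exact ih.trans (List.suffix_cons k t)

lemma vv_mem (h0 : [] ∈ D) (t : List ℕ) : vv D t ∈ D := by
  induction t with
  | nil => exact h0
  | cons k t ih =>
    by_cases h : k :: t ∈ D
    · rw [vv_of_mem h]; exact h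
    · rw [vv_of_not_mem h]; exact ih

lemma mem_of_suffix (hD : ∀ k t, k :: t ∈ D → t ∈ D) {s t : List ℕ} (h : s <:+ t)
    (ht : t ∈ D) : s ∈ D := by
  obtain ⟨l, rfl⟩ := h
  induction l with
  | nil => exact ht
  | cons k l ih => exact ih (hD _ _ ht)

lemma suffix_vv {s t : List ℕ} (hs : s ∈ D) (h : s <:+ t) : s <:+ vv D t := by
  induction t with
  | nil =>
    rw [List.suffix_nil] at h
    subst h
    exact List.suffix_rfl
  | cons k t ih =>
    by_cases h1 : k :: t ∈ D
    · rw [vv_of_mem h1]; exact h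
    · rw [vv_of_not_mem h1]
      rcases List.suffix_cons_iff.1 h with h2 | h2
      · exact absurd (h2 ▸ hs) h1
      · exact ih h2

lemma vv_eq_of_not_mem (hD : ∀ k t, k :: t ∈ D → t ∈ D) {s t : List ℕ} (h : s <:+ t)
    (hs : s ∉ D) : vv D s = vv D t := by
  obtain ⟨l, rfl⟩ := h
  induction l with
  | nil => rfl
  | cons k l ih =>
    rw [List.cons_append, vv_of_not_mem, ih]
    intro h
    exact hs (mem_of_suffix hD (List.suffix_append (k :: l) s) h)

/-- The part of the segment inside `D`. -/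
def Din (D : Finset (List ℕ)) (p : List ℕ × List ℕ) : List ℕ × List ℕ := (vv D p.1, vv D p.2)

/-- The part of the segment outside `D`. -/
def Dout (D : Finset (List ℕ)) (p : List ℕ × List ℕ) : List ℕ × List ℕ :=
  (if p.1 ∈ D then vv D p.2 else p.1, p.2)

lemma vv_suffix_vv (h0 : [] ∈ D) {s t : List ℕ} (h : s <:+ t) : vv D s <:+ vv D t :=
  suffix_vv (vv_mem h0 s) ((vv_suffix s).trans h)

lemma on_Din (h0 : [] ∈ D) (hD : ∀ k t, k :: t ∈ D → t ∈ D) {u : List ℕ}
    {p : List ℕ × List ℕ} (h : On u (Din D p)) : u ∈ D ∧ On u p := by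
  have hu : u ∈ D := mem_of_suffix hD h.1 (vv_mem h0 _)
  exact ⟨hu, h.1.trans (vv_suffix _), fun h1 => h.2 (suffix_vv hu h1)⟩

lemma on_Dout (hD : ∀ k t, k :: t ∈ D → t ∈ D) {u : List ℕ}
    {p : List ℕ × List ℕ} (hp : p.1 <:+ p.2) (h : On u (Dout D p)) : u ∉ D ∧ On u p := by
  obtain ⟨h1, h2⟩ := h
  rw [Dout] at h1 h2
  simp only at h1 h2
  by_cases hs : p.1 ∈ D
  · rw [if_pos hs] at h2
    exact ⟨fun hu => h2 (suffix_vv hu h1), h1, fun h3 => h2 (h3.trans (suffix_vv hs hp))⟩
  · rw [if_neg hs] at h2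
    refine ⟨fun hu => hs (mem_of_suffix hD ?_ hu), h1, h2⟩
    rcases List.suffix_or_suffix_of_suffix hp h1 with h3 | h3
    · exact h3
    · exact absurd h3 h2

lemma suffix_Dout {p : List ℕ × List ℕ} (hp : p.1 <:+ p.2) :
    (Dout D p).1 <:+ (Dout D p).2 := by
  rw [Dout]
  simp only
  split_ifs
  · exact vv_suffix _
  · exact hp

lemma dif_res (hD : ∀ k t, k :: t ∈ D → t ∈ D) (n : ℕ) (w : HH) (p : List ℕ × List ℕ) :
    dif n (res D w) p = dif n w (Din D p) := by
  rw [dif, dif, cum_res hD, cum_res hD, Din]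

lemma dif_sub_res (hD : ∀ k t, k :: t ∈ D → t ∈ D) (n : ℕ) (w : HH)
    {p : List ℕ × List ℕ} (hp : p.1 <:+ p.2) :
    dif n (w - res D w : HH) p = dif n w (Dout D p) := by
  have h1 : ∀ t, cum n (w - res D w : HH) t = cum n w t - cum n w (vv D t) := by
    intro t
    have h1 : SS n (w - res D w) t = (SS n w - SS n (res D w)) t := by rw [map_sub]
    have h2 : (SS n w - SS n (res D w)) t = cum n w t - cum n (res D w) t := rfl
    rw [← cum_res hD, ← h2, ← h1, SS_apply]
  rw [dif, dif, h1, h1, Dout]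
  simp only
  split_ifs with hs
  · rw [vv_of_mem hs]; ring
  · rw [vv_eq_of_not_mem hD hp hs]; ring

end vv

/-- **Lower `2`-estimate**: `Y n` is asymptotically uniformly convex with the Hilbertian modulus. -/
theorem lower_two {D : Finset (List ℕ)} (h0 : [] ∈ D) (hD : ∀ k t, k :: t ∈ D → t ∈ D) (n : ℕ)
    (w : HH) :
    ‖toJ n (res D w)‖ ^ 2 + ‖toJ n (w - res D w)‖ ^ 2 ≤ ‖toJ n w‖ ^ 2 := by
  rw [norm_toJ_sq, norm_toJ_sq, norm_toJ_sq]
  have h1 : ‖RR n (res D w)‖ ^ 2 + ‖RR n (w - res D w)‖ ^ 2 ≤ ‖RR n w‖ ^ 2 := by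
    refine hasSum_le (fun t => ?_) ((HH_hasSum_sq (RR n (res D w))).add
      (HH_hasSum_sq (RR n (w - res D w)))) (HH_hasSum_sq (RR n w))
    have e : (w - res D w) t = w t - res D w t := rfl
    rw [RR_apply, RR_apply, RR_apply, e, res_apply]
    split_ifs <;> simp
  have h2 : ∀ (m₂ : ℕ) (S₂ : Fin m₂ → List ℕ × List ℕ), IsSys S₂ →
      ∑ i, dif n (w - res D w : HH) (S₂ i) ^ 2 ≤ ‖SJ n w‖ ^ 2 - ‖SJ n (res D w)‖ ^ 2 := by
    intro m₂ S₂ hS₂
    have h3 : ‖SJ n (res D w)‖ ^ 2 ≤
        ‖SJ n w‖ ^ 2 - ∑ i, dif n (w - res D w : HH) (S₂ i) ^ 2 := by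
      refine SJ_le fun m₁ S₁ hS₁ => ?_
      have hS : IsSys (Sum.elim (fun i => Din D (S₁ i)) fun i => Dout D (S₂ i)) := by
        constructor
        · rintro (i | i)
          · exact vv_suffix_vv h0 (hS₁.1 i)
          · exact suffix_Dout (hS₂.1 i)
        · rintro (i | i) (j | j) hij u hi hj
          · exact hS₁.2 i j (fun h => hij (by rw [h])) u (on_Din h0 hD hi).2
              (on_Din h0 hD hj).2
          · exact (on_Dout hD (hS₂.1 j) hj).1 (on_Din h0 hD hi).1
          · exact (on_Dout hD (hS₂.1 i) hi).1 (on_Din h0 hD hj).1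
          · exact hS₂.2 i j (fun h => hij (by rw [h])) u (on_Dout hD (hS₂.1 i) hi).2
              (on_Dout hD (hS₂.1 j) hj).2
      have h4 := sum_le_SJ n w hS
      rw [Fintype.sum_sum_type] at h4
      simp only [Sum.elim_inl, Sum.elim_inr] at h4
      simp only [dif_res hD]
      have h5 : ∑ i, dif n (w - res D w : HH) (S₂ i) ^ 2 = ∑ i, dif n w (Dout D (S₂ i)) ^ 2 :=
        sum_congr rfl fun i _ => by rw [dif_sub_res hD n w (hS₂.1 i)]
      rw [h5]
      linarith
    linarith
  have h3 := SJ_le h2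
  linarith

lemma norm_toJ_res_le {D : Finset (List ℕ)} (h0 : [] ∈ D) (hD : ∀ k t, k :: t ∈ D → t ∈ D)
    (n : ℕ) (w : HH) : ‖toJ n (res D w)‖ ≤ ‖toJ n w‖ := by
  refine le_of_sq_le_sq ?_ (norm_nonneg _)
  have h1 := lower_two h0 hD n w
  have h2 := sq_nonneg ‖toJ n (w - res D w)‖
  linarith

/-- The size of the segment sums of `g` beyond `v`. -/
noncomputable def MM (D : Finset (List ℕ)) (n : ℕ) (g : HH) (v : List ℕ) : ℝ :=
  sSup {x | ∃ t, vv D t = v ∧ |dif n g (v, t)| = x}

lemma abs_dif_le (n : ℕ) (g : HH) {p : List ℕ × List ℕ} (hp : p.1 <:+ p.2) :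
    |dif n g p| ≤ ‖SJ n g‖ := by
  have h := sum_le_SJ n g (ι := Unit) (S := fun _ => p) ⟨fun _ => hp, fun i j hij =>
    absurd (Subsingleton.elim i j) hij⟩
  simp only [Finset.univ_unique, sum_singleton] at h
  exact abs_le_of_sq_le_sq h (norm_nonneg _)

lemma bddAbove_MM (D : Finset (List ℕ)) (n : ℕ) (g : HH) (v : List ℕ) :
    BddAbove {x | ∃ t, vv D t = v ∧ |dif n g (v, t)| = x} := by
  refine ⟨‖SJ n g‖, ?_⟩
  rintro x ⟨t, rfl, rfl⟩
  exact abs_dif_le n g (vv_suffix t)

lemma le_MM (D : Finset (List ℕ)) (n : ℕ) (g : HH) (t : List ℕ) :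
    |dif n g (vv D t, t)| ≤ MM D n g (vv D t) :=
  le_csSup (bddAbove_MM D n g _) ⟨t, rfl, rfl⟩

lemma MM_nonneg {D : Finset (List ℕ)} (n : ℕ) (g : HH) {v : List ℕ} (hv : v ∈ D) :
    0 ≤ MM D n g v := by
  have h := le_MM D n g v
  rw [vv_of_mem hv] at h
  exact (abs_nonneg _).trans h

lemma sum_MM_le {D : Finset (List ℕ)} (hD : ∀ k t, k :: t ∈ D → t ∈ D) (n : ℕ) (g : HH) :
    ∑ v ∈ D, MM D n g v ^ 2 ≤ ‖SJ n g‖ ^ 2 := by
  have main : ∀ θ : ℝ, 0 ≤ θ → θ < 1 → θ ^ 2 * ∑ v ∈ D, MM D n g v ^ 2 ≤ ‖SJ n g‖ ^ 2 := by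
    intro θ hθ0 hθ1
    have h1 : ∀ v : {v // v ∈ D}, ∃ t, vv D t = v.1 ∧ θ * MM D n g v.1 ≤ |dif n g (v.1, t)| := by
      intro v
      rcases eq_or_lt_of_le (MM_nonneg n g v.2) with h | h
      · exact ⟨v.1, vv_of_mem v.2, by rw [← h, mul_zero]; exact abs_nonneg _⟩
      · have hne : {x | ∃ t, vv D t = v.1 ∧ |dif n g (v.1, t)| = x}.Nonempty :=
          ⟨_, v.1, vv_of_mem v.2, rfl⟩
        have hlt : θ * MM D n g v.1 < sSup {x | ∃ t, vv D t = v.1 ∧ |dif n g (v.1, t)| = x} := by
          change _ < MM D n g v.1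
          nlinarith
        obtain ⟨x, ⟨t, ht, rfl⟩, hx⟩ := exists_lt_of_lt_csSup hne hlt
        exact ⟨t, ht, hx.le⟩
    choose τ hτ1 hτ2 using h1
    have hon : ∀ (v : {v // v ∈ D}) (u : List ℕ), On u (v.1, τ v) → vv D u = v.1 := by
      intro v u hu
      obtain ⟨hu1, hu2⟩ := hu
      simp only at hu1 hu2
      have h2 : v.1 <:+ τ v := by
        have := vv_suffix (D := D) (τ v)
        rwa [hτ1] at this
      have h3 : v.1 <:+ u := by
        rcases List.suffix_or_suffix_of_suffix h2 hu1 with h3 | h3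
        · exact h3
        · exact absurd h3 hu2
      have h4 : u ∉ D := fun hu => hu2 (by
        have := suffix_vv hu hu1
        rwa [hτ1] at this)
      rw [vv_eq_of_not_mem hD hu1 h4, hτ1]
    have hS : IsSys (fun v : {v // v ∈ D} => (v.1, τ v)) := by
      refine ⟨fun v => ?_, fun v w hvw u hu hu' => hvw ?_⟩
      · have := vv_suffix (D := D) (τ v)
        rwa [hτ1] at this
      · exact Subtype.ext ((hon v u hu).symm.trans (hon w u hu'))
    refine le_trans ?_ (sum_le_SJ n g hS)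
    rw [mul_sum, ← sum_coe_sort]
    refine sum_le_sum fun v _ => ?_
    have h5 := hτ2 v
    rw [← mul_pow, ← sq_abs (dif n g _)]
    exact pow_le_pow_left₀ (mul_nonneg hθ0 (MM_nonneg n g v.2)) h5 2
  have hlim : Tendsto (fun θ : ℝ => θ ^ 2 * ∑ v ∈ D, MM D n g v ^ 2) (𝓝[<] 1)
      (𝓝 (1 ^ 2 * ∑ v ∈ D, MM D n g v ^ 2)) := by
    have : Continuous fun θ : ℝ => θ ^ 2 * ∑ v ∈ D, MM D n g v ^ 2 := by fun_prop
    exact (this.tendsto 1).mono_left nhdsWithin_le_nhds
  rw [one_pow, one_mul] at hlim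
  refine le_of_tendsto hlim ?_
  filter_upwards [Ioo_mem_nhdsLT (show (0 : ℝ) < 1 by norm_num)] with θ hθ
  exact main θ hθ.1.le hθ.2

/-- The choice of the sign at `v`: the sign of the last large increment before `v`. -/
lemma exists_sign (F : List ℕ → ℝ) (c a B : ℝ) (v : List ℕ) :
    ∃ σ : ℝ, (σ = 1 ∨ σ = -1) ∧ ∀ s, s <:+ v → σ * (c - F s) < 0 → B < a * |c - F s| →
      ∃ m, s <:+ m ∧ m <:+ v ∧ B < a * (σ * (c - F m)) := by
  have hs : ∀ x : ℝ, ∃ σ : ℝ, (σ = 1 ∨ σ = -1) ∧ σ * x = |x| := by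
    intro x
    rcases le_total 0 x with h | h
    · exact ⟨1, Or.inl rfl, by rw [one_mul, abs_of_nonneg h]⟩
    · exact ⟨-1, Or.inr rfl, by rw [abs_of_nonpos h]; ring⟩
  induction v with
  | nil =>
    obtain ⟨σ, h1, h2⟩ := hs (c - F [])
    refine ⟨σ, h1, fun s hs hneg => ?_⟩
    rw [List.suffix_nil] at hs
    subst hs
    rw [h2] at hneg
    exact absurd hneg (not_lt.2 (abs_nonneg _))
  | cons k t ih =>
    by_cases hb : B < a * |c - F (k :: t)|
    · obtain ⟨σ, h1, h2⟩ := hs (c - F (k :: t))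
      exact ⟨σ, h1, fun s hs _ _ => ⟨k :: t, hs, List.suffix_rfl, by rwa [h2]⟩⟩
    · obtain ⟨σ, h1, h2⟩ := ih
      refine ⟨σ, h1, fun s hs h3 h4 => ?_⟩
      rcases List.suffix_cons_iff.1 hs with h5 | h5
      · subst h5
        exact absurd h4 hb
      · obtain ⟨m, h6, h7, h8⟩ := h2 s h5 h3 h4
        exact ⟨m, h6, h7.trans (List.suffix_cons k t), h8⟩

/-- The elementary inequality behind the splitting of a segment. -/
lemma split_ineq {a c x H M β σ : ℝ} (ha : 0 ≤ a) (hc : 0 ≤ c) (hσ : σ = 1 ∨ σ = -1)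
    (hx : σ * x < 0) (hH : |H| ≤ M) (hβ : c * M < a * (σ * β)) :
    (a * x + c * H) ^ 2 ≤ a ^ 2 * ((x - β) ^ 2 + β ^ 2) + c ^ 2 * H ^ 2 := by
  have hM : 0 ≤ M := (abs_nonneg _).trans hH
  have hH1 := le_abs_self H
  have hH2 := neg_abs_le H
  have key : a * x * (c * H) ≤ -(a * x * (a * β)) := by
    rcases hσ with h | h
    · subst h
      have hx' : x < 0 := by linarith
      have hβ' : c * M < a * β := by linarith
      have h1 : -(a * x) * (-(c * H)) ≤ -(a * x) * (a * β) := by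
        apply mul_le_mul_of_nonneg_left _ (by nlinarith)
        have : c * (-H) ≤ c * M := mul_le_mul_of_nonneg_left (by linarith) hc
        linarith
      linarith
    · subst h
      have hx' : 0 < x := by linarith
      have hβ' : c * M < -(a * β) := by linarith
      have h1 : (a * x) * (c * H) ≤ (a * x) * (-(a * β)) := by
        apply mul_le_mul_of_nonneg_left _ (by positivity)
        have : c * H ≤ c * M := mul_le_mul_of_nonneg_left (by linarith) hc
        linarith
      linarith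
  nlinarith [sq_nonneg (a * β)]

theorem key_SJ {D : Finset (List ℕ)} (h0 : [] ∈ D) (hD : ∀ k t, k :: t ∈ D → t ∈ D) {n : ℕ}
    {f g h : HH} {a c : ℝ} (ha : 0 ≤ a) (hc : 0 ≤ c) {σ : List ℕ → ℝ}
    (hf : ∀ t, cum n f t = cum n f (vv D t)) (hσ : ∀ v, σ v = 1 ∨ σ v = -1)
    (hσ2 : ∀ v s, s <:+ v → σ v * (cum n f v - cum n f s) < 0 →
      c * MM D n g v < a * |cum n f v - cum n f s| →
      ∃ m, s <:+ m ∧ m <:+ v ∧ c * MM D n g v < a * (σ v * (cum n f v - cum n f m)))
    (hh0 : ∀ t ∈ D, cum n h t = 0) (hsign : ∀ t, σ (vv D t) * cum n h t ≤ 0)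
    (hle : ∀ t, |cum n h t| ≤ |dif n g (vv D t, t)|)
    (hlip : ∀ s t, s <:+ t → s ∉ D → |cum n h t - cum n h s| ≤ |dif n g (s, t)|) :
    ‖SJ n (a • f + c • h)‖ ^ 2 ≤ a ^ 2 * ‖SJ n f‖ ^ 2 + 3 * c ^ 2 * ‖SJ n g‖ ^ 2 := by
  classical
  refine SJ_le fun m S hS => ?_
  have hcum : ∀ t, cum n (a • f + c • h : HH) t = a * cum n f (vv D t) + c * cum n h t := by
    intro t
    have h1 : SS n (a • f + c • h) t = (a • SS n f + c • SS n h) t := by
      rw [map_add, map_smul, map_smul]
    have h2 : (a • SS n f + c • SS n h) t = a * cum n f t + c * cum n h t := rfl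
    rw [← SS_apply, h1, h2, hf]
  have key : ∀ i, ∃ μ, vv D (S i).1 <:+ μ ∧ μ <:+ vv D (S i).2 ∧
      dif n (a • f + c • h : HH) (S i) ^ 2 ≤
        a ^ 2 * (dif n f (vv D (S i).1, μ) ^ 2 + dif n f (μ, vv D (S i).2) ^ 2) +
        c ^ 2 * dif n g (Dout D (S i)) ^ 2 +
        2 * c ^ 2 * (if (S i).1 ∈ D ∧ (S i).1 ≠ vv D (S i).2 then
          MM D n g (vv D (S i).2) ^ 2 else 0) := by
    intro i
    rcases hSi : S i with ⟨s, t⟩
    have hst : s <:+ t := by
      have := hS.1 i
      rwa [hSi] at this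
    simp only
    have hc2 : 0 ≤ 2 * c ^ 2 := by positivity
    by_cases hs : s ∈ D
    · -- crossing or inner segments
      have e1 : dif n (a • f + c • h : HH) (s, t) =
          a * (cum n f (vv D t) - cum n f s) + c * cum n h t := by
        rw [dif, hcum, hcum, hh0 s hs, vv_of_mem hs]; ring
      have e2 : dif n g (Dout D (s, t)) = dif n g (vv D t, t) := by
        rw [Dout]; simp only [if_pos hs]
      rw [e1, e2, vv_of_mem hs]
      have hsv : s <:+ vv D t := suffix_vv hs hst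
      have hH := hle t
      have hHM := hH.trans (le_MM D n g t)
      have hH2 : cum n h t ^ 2 ≤ dif n g (vv D t, t) ^ 2 := sq_le_sq.2 hH
      have hcH2 := mul_le_mul_of_nonneg_left hH2 (sq_nonneg c)
      have hM0 := MM_nonneg n g (vv_mem h0 t)
      have hsg := hsign t
      have hite : 0 ≤ (if s ∈ D ∧ s ≠ vv D t then MM D n g (vv D t) ^ 2 else 0) := by
        split_ifs
        · exact sq_nonneg _
        · exact le_rfl
      rcases lt_or_ge (σ (vv D t) * (cum n f (vv D t) - cum n f s)) 0 with hx | hx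
      · rcases lt_or_ge (c * MM D n g (vv D t)) (a * |cum n f (vv D t) - cum n f s|)
          with hb | hb
        · obtain ⟨μ, h1, h2, h3⟩ := hσ2 _ s hsv hx hb
          refine ⟨μ, h1, h2, ?_⟩
          have h4 := split_ineq ha hc (hσ _) hx hHM h3
          have e3 : dif n f (s, μ) = (cum n f (vv D t) - cum n f s) -
              (cum n f (vv D t) - cum n f μ) := by rw [dif]; ring
          have e4 : dif n f (μ, vv D t) = cum n f (vv D t) - cum n f μ := rfl
          rw [e3, e4]
          have := mul_nonneg hc2 hite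
          linarith
        · refine ⟨vv D t, hsv, List.suffix_rfl, ?_⟩
          have hne : s ≠ vv D t := by
            rintro h
            rw [← h, sub_self, mul_zero] at hx
            exact lt_irrefl _ hx
          rw [if_pos ⟨hs, hne⟩]
          have e3 : dif n f (s, vv D t) = cum n f (vv D t) - cum n f s := rfl
          have e4 : dif n f (vv D t, vv D t) = 0 := by rw [dif]; ring
          rw [e3, e4]
          set x := cum n f (vv D t) - cum n f s
          set H := cum n h t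
          set M := MM D n g (vv D t)
          have h5 : (a * x) * (c * H) ≤ (c * M) * (c * M) := by
            calc (a * x) * (c * H) ≤ |(a * x) * (c * H)| := le_abs_self _
              _ = (a * |x|) * (c * |H|) := by
                rw [abs_mul, abs_mul, abs_mul, abs_of_nonneg ha, abs_of_nonneg hc]
              _ ≤ (c * M) * (c * M) := by
                apply mul_le_mul hb (mul_le_mul_of_nonneg_left hHM hc) (by positivity)
                  (by positivity)
          nlinarith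
      · refine ⟨vv D t, hsv, List.suffix_rfl, ?_⟩
        have e3 : dif n f (s, vv D t) = cum n f (vv D t) - cum n f s := rfl
        have e4 : dif n f (vv D t, vv D t) = 0 := by rw [dif]; ring
        rw [e3, e4]
        set x := cum n f (vv D t) - cum n f s
        set H := cum n h t
        have h5 : (a * x) * (c * H) ≤ 0 := by
          have hac : 0 ≤ a * c := mul_nonneg ha hc
          have hxH : x * H ≤ 0 := by
            rcases hσ (vv D t) with h | h
            · rw [h] at hx hsg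
              exact mul_nonpos_of_nonneg_of_nonpos (by linarith) (by linarith)
            · rw [h] at hx hsg
              exact mul_nonpos_of_nonpos_of_nonneg (by linarith) (by linarith)
          nlinarith [mul_le_mul_of_nonneg_left hxH hac]
        have := mul_nonneg hc2 hite
        nlinarith
    · -- outer segments
      have hvv := vv_eq_of_not_mem hD hst hs
      refine ⟨vv D t, by rw [hvv], List.suffix_rfl, ?_⟩
      have e1 : dif n (a • f + c • h : HH) (s, t) = c * (cum n h t - cum n h s) := by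
        rw [dif, hcum, hcum, hvv]; ring
      have e2 : dif n g (Dout D (s, t)) = dif n g (s, t) := by
        rw [Dout]; simp only [if_neg hs]
      have e3 : dif n f (vv D s, vv D t) = 0 := by rw [hvv, dif]; ring
      have e4 : dif n f (vv D t, vv D t) = 0 := by rw [dif]; ring
      rw [e1, e2, e3, e4, if_neg (fun h => hs h.1)]
      have h1 : (cum n h t - cum n h s) ^ 2 ≤ dif n g (s, t) ^ 2 := sq_le_sq.2 (hlip s t hst hs)
      have h2 := mul_le_mul_of_nonneg_left h1 (sq_nonneg c)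
      nlinarith
  choose μ h1 h2 h3 using key
  have hA : IsSys (Sum.elim (fun i => (vv D (S i).1, μ i)) fun i => (μ i, vv D (S i).2)) := by
    have o1 : ∀ i u, On u (vv D (S i).1, μ i) → On u (S i) := fun i u hu =>
      (on_Din h0 hD (p := S i) ⟨hu.1.trans (h2 i), hu.2⟩).2
    have o2 : ∀ i u, On u (μ i, vv D (S i).2) → On u (S i) := fun i u hu =>
      (on_Din h0 hD (p := S i) ⟨hu.1, fun h => hu.2 (h.trans (h1 i))⟩).2
    constructor
    · rintro (i | i)
      · exact h1 i
      · exact h2 i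
    · rintro (i | i) (j | j) hij u hi hj
      · exact hS.2 i j (fun h => hij (by rw [h])) u (o1 i u hi) (o1 j u hj)
      · by_cases h : i = j
        · subst h
          exact hj.2 hi.1
        · exact hS.2 i j h u (o1 i u hi) (o2 j u hj)
      · by_cases h : i = j
        · subst h
          exact hi.2 hj.1
        · exact hS.2 i j h u (o2 i u hi) (o1 j u hj)
      · exact hS.2 i j (fun h => hij (by rw [h])) u (o2 i u hi) (o2 j u hj)
  have hB : IsSys fun i => Dout D (S i) :=
    ⟨fun i => suffix_Dout (hS.1 i), fun i j hij u hi hj =>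
      hS.2 i j hij u (on_Dout hD (hS.1 i) hi).2 (on_Dout hD (hS.1 j) hj).2⟩
  have sA := sum_le_SJ n f hA
  rw [Fintype.sum_sum_type] at sA
  simp only [Sum.elim_inl, Sum.elim_inr] at sA
  have sB := sum_le_SJ n g hB
  have sC : ∑ i, (if (S i).1 ∈ D ∧ (S i).1 ≠ vv D (S i).2 then
      MM D n g (vv D (S i).2) ^ 2 else 0) ≤ ‖SJ n g‖ ^ 2 := by
    refine le_trans ?_ (sum_MM_le hD n g)
    rw [← sum_filter, ← sum_image (f := fun v => MM D n g v ^ 2)
      (g := fun i => vv D (S i).2)]
    · refine sum_le_sum_of_subset_of_nonneg ?_ fun _ _ _ => sq_nonneg _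
      intro v hv
      rw [mem_image] at hv
      obtain ⟨i, _, rfl⟩ := hv
      exact vv_mem h0 _
    · intro i hi j hj hij
      rw [mem_coe, mem_filter] at hi hj
      by_contra hne
      have hon : ∀ i, ((S i).1 ∈ D ∧ (S i).1 ≠ vv D (S i).2) → On (vv D (S i).2) (S i) := by
        intro i hi
        refine ⟨vv_suffix _, fun h => hi.2 ?_⟩
        have h4 : (S i).1 <:+ vv D (S i).2 := suffix_vv hi.1 (hS.1 i)
        exact h4.eq_of_length (le_antisymm h4.length_le h.length_le)
      have h5 := hon j hj.2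
      have hij' : vv D (S i).2 = vv D (S j).2 := hij
      rw [← hij'] at h5
      exact hS.2 i j hne _ (hon i hi.2) h5
  calc ∑ i, dif n (a • f + c • h : HH) (S i) ^ 2 ≤ ∑ i, (a ^ 2 *
        (dif n f (vv D (S i).1, μ i) ^ 2 + dif n f (μ i, vv D (S i).2) ^ 2) +
        c ^ 2 * dif n g (Dout D (S i)) ^ 2 +
        2 * c ^ 2 * (if (S i).1 ∈ D ∧ (S i).1 ≠ vv D (S i).2 then
          MM D n g (vv D (S i).2) ^ 2 else 0)) := sum_le_sum fun i _ => h3 i
    _ = a ^ 2 * (∑ i, dif n f (vv D (S i).1, μ i) ^ 2 + ∑ i, dif n f (μ i, vv D (S i).2) ^ 2) +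
        c ^ 2 * ∑ i, dif n g (Dout D (S i)) ^ 2 +
        2 * c ^ 2 * ∑ i, (if (S i).1 ∈ D ∧ (S i).1 ≠ vv D (S i).2 then
          MM D n g (vv D (S i).2) ^ 2 else 0) := by
      rw [sum_add_distrib, sum_add_distrib, ← mul_sum, ← mul_sum, ← mul_sum, sum_add_distrib]
    _ ≤ a ^ 2 * ‖SJ n f‖ ^ 2 + c ^ 2 * ‖SJ n g‖ ^ 2 + 2 * c ^ 2 * ‖SJ n g‖ ^ 2 := by
      gcongr
    _ = _ := by ring

end Vale.Agent.P069.JT
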