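import Vale.Agent.P069.Bdl.B1
import Mathlib.Algebra.Order.Chebyshev
attribute [-instance] ProperSMul.toContinuousSMul IsTopologicalTorsor.toContinuousSMul IdemSemiring.toCanonicallyOrderedAdd IdemSemiring.toMulLeftMono IdemSemiring.toMulRightMono AddQuantale.instAddLeftMono AddQuantale.instAddRightMono Quantale.instMulLeftMono Quantale.instMulRightMono FiniteDimensional.rclike_to_real IsScalarTower.complexToReal FiniteDimensional.complexToReal

/-!
# The James-tree norm on the countably branching tree of height `n`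
-/

open Filter Topology TopologicalSpace Finset
open scoped ENNReal

namespace Vale.Agent.P069.JT

/-- The node `u` lies on the segment `(s, t]`, `p = (s, t)`. -/
def On (u : List ℕ) (p : List ℕ × List ℕ) : Prop := u <:+ p.2 ∧ ¬ u <:+ p.1

/-- A family of pairwise disjoint segments. -/
def IsSys {ι : Type} (S : ι → List ℕ × List ℕ) : Prop :=
  (∀ i, (S i).1 <:+ (S i).2) ∧ ∀ i j, i ≠ j → ∀ u, On u (S i) → ¬ On u (S j)

/-- The finite systems of pairwise disjoint segments. -/
def Sy : Type := Σ m : ℕ, {S : Fin m → List ℕ × List ℕ // IsSys S}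

/-- The sum of `w` over the segment `p = (s, t]`. -/
def dif (n : ℕ) (w : List ℕ → ℝ) (p : List ℕ × List ℕ) : ℝ := cum n w p.2 - cum n w p.1

lemma dif_add (n : ℕ) (v w : List ℕ → ℝ) (p : List ℕ × List ℕ) :
    dif n (v + w) p = dif n v p + dif n w p := by
  simp only [dif, cum_add]; ring

lemma dif_smul (n : ℕ) (a : ℝ) (w : List ℕ → ℝ) (p : List ℕ × List ℕ) :
    dif n (a • w) p = a * dif n w p := by
  simp only [dif, cum_smul]; ring

/-- The counted nodes of the segment. -/
def nodes (n : ℕ) (p : List ℕ × List ℕ) : Finset (List ℕ) :=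
  p.2.tails.toFinset.filter fun u => ¬ u <:+ p.1 ∧ u ≠ [] ∧ u.length ≤ n

lemma mem_nodes {n : ℕ} {p : List ℕ × List ℕ} {u : List ℕ} :
    u ∈ nodes n p ↔ On u p ∧ u ≠ [] ∧ u.length ≤ n := by
  rw [nodes, mem_filter, List.mem_toFinset, List.mem_tails, On, and_assoc]

lemma dif_eq_sum (n : ℕ) (w : List ℕ → ℝ) (s l : List ℕ) :
    dif n w (s, l ++ s) = ∑ u ∈ nodes n (s, l ++ s), w u := by
  induction l with
  | nil =>
    have h : nodes n (s, [] ++ s) = ∅ := by
      rw [Finset.eq_empty_iff_forall_notMem]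
      intro u hu
      rw [mem_nodes] at hu
      exact hu.1.2 hu.1.1
    rw [h, sum_empty, dif]
    simp
  | cons k l ih =>
    have h1 : dif n w (s, (k :: l) ++ s) = dif n w (s, l ++ s) +
        if (l ++ s).length < n then w (k :: (l ++ s)) else 0 := by
      simp only [dif, List.cons_append, cum_cons]; ring
    rw [h1, ih]
    have hns : ¬ k :: (l ++ s) <:+ s := fun h => by
      have := h.length_le
      simp at this
    have hnl : k :: (l ++ s) ∉ nodes n (s, l ++ s) := fun h => by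
      rw [mem_nodes] at h
      have := h.1.1.length_le
      simp at this
    by_cases h : (l ++ s).length < n
    · have h2 : nodes n (s, (k :: l) ++ s) = insert (k :: (l ++ s)) (nodes n (s, l ++ s)) := by
        ext u
        rw [mem_insert, mem_nodes, mem_nodes, On, On, List.cons_append, List.suffix_cons_iff]
        constructor
        · rintro ⟨⟨h3 | h3, h4⟩, h5⟩
          · exact Or.inl h3
          · exact Or.inr ⟨⟨h3, h4⟩, h5⟩
        · rintro (h3 | ⟨⟨h3, h4⟩, h5⟩)
          · subst h3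
            exact ⟨⟨Or.inl rfl, hns⟩, by simp, by simpa using h⟩
          · exact ⟨⟨Or.inr h3, h4⟩, h5⟩
      rw [h2, sum_insert hnl, if_pos h, add_comm]
    · have h2 : nodes n (s, (k :: l) ++ s) = nodes n (s, l ++ s) := by
        ext u
        rw [mem_nodes, mem_nodes, On, On, List.cons_append, List.suffix_cons_iff]
        constructor
        · rintro ⟨⟨h3 | h3, h4⟩, h5, h6⟩
          · subst h3
            rw [List.length_cons] at h6
            omega
          · exact ⟨⟨h3, h4⟩, h5, h6⟩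
        · rintro ⟨⟨h3, h4⟩, h5⟩
          exact ⟨⟨Or.inr h3, h4⟩, h5⟩
      rw [h2, if_neg h, add_zero]

lemma card_nodes_le (n : ℕ) (p : List ℕ × List ℕ) : (nodes n p).card ≤ n := by
  have h : (nodes n p).card ≤ (Finset.Icc 1 n).card := by
    refine Finset.card_le_card_of_injOn List.length ?_ ?_
    · intro u hu
      rw [mem_coe, mem_nodes] at hu
      rw [mem_coe, mem_Icc]
      exact ⟨List.length_pos_iff.2 hu.2.1, hu.2.2⟩
    · intro u hu v hv huv
      rw [mem_coe, mem_nodes] at hu hv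
      exact (List.suffix_of_suffix_length_le hu.1.1 hv.1.1 huv.le).eq_of_length huv
  rwa [Nat.card_Icc, Nat.add_sub_cancel] at h

lemma dif_sq_le (n : ℕ) (w : List ℕ → ℝ) {p : List ℕ × List ℕ} (hp : p.1 <:+ p.2) :
    dif n w p ^ 2 ≤ n * ∑ u ∈ nodes n p, w u ^ 2 := by
  obtain ⟨s, t⟩ := p
  obtain ⟨l, hl⟩ := hp
  change l ++ s = t at hl
  subst hl
  rw [dif_eq_sum]
  refine (sq_sum_le_card_mul_sum_sq).trans ?_
  gcongr
  exact_mod_cast card_nodes_le n _

lemma sum_sq_le (w : HH) (s : Finset (List ℕ)) : ∑ u ∈ s, w u ^ 2 ≤ ‖w‖ ^ 2 :=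
  sum_le_hasSum s (fun _ _ => sq_nonneg _) (HH_hasSum_sq w)

lemma sum_dif_sq_le (n : ℕ) (w : HH) {ι : Type} [Fintype ι] {S : ι → List ℕ × List ℕ}
    (hS : IsSys S) : ∑ i, dif n w (S i) ^ 2 ≤ n * ‖w‖ ^ 2 := by
  classical
  calc ∑ i, dif n w (S i) ^ 2 ≤ ∑ i, n * ∑ u ∈ nodes n (S i), w u ^ 2 :=
        sum_le_sum fun i _ => dif_sq_le n w (hS.1 i)
    _ = n * ∑ u ∈ Finset.univ.biUnion fun i => nodes n (S i), w u ^ 2 := by
        rw [sum_biUnion, mul_sum]
        intro i _ j _ hij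
        rw [Function.onFun, Finset.disjoint_left]
        intro u hu hv
        rw [mem_nodes] at hu hv
        exact hS.2 i j hij u hu.1 hv.1
    _ ≤ n * ‖w‖ ^ 2 := by
        gcongr
        exact sum_sq_le w _

/-- The space of bounded families indexed by the systems. -/
abbrev BJ : Type := lp (fun σ : Sy => EuclideanSpace ℝ (Fin σ.1)) ∞

/-- The segment sums of a system. -/
noncomputable def segs (n : ℕ) (w : List ℕ → ℝ) (σ : Sy) : EuclideanSpace ℝ (Fin σ.1) :=
  WithLp.toLp 2 fun i => dif n w (σ.2.1 i)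

lemma norm_segs_sq (n : ℕ) (w : List ℕ → ℝ) (σ : Sy) :
    ‖segs n w σ‖ ^ 2 = ∑ i, dif n w (σ.2.1 i) ^ 2 := by
  rw [EuclideanSpace.norm_sq_eq]
  refine sum_congr rfl fun i _ => ?_
  rw [segs, Real.norm_eq_abs, sq_abs]

lemma norm_segs_le (n : ℕ) (w : HH) (σ : Sy) : ‖segs n w σ‖ ≤ (n + 1) * ‖w‖ := by
  refine le_of_sq_le_sq ?_ (by positivity)
  rw [norm_segs_sq]
  refine (sum_dif_sq_le n w σ.2.2).trans ?_
  have h := sq_nonneg ‖w‖
  have hn : (0 : ℝ) ≤ n := Nat.cast_nonneg n
  nlinarith [mul_nonneg hn h, mul_nonneg (mul_nonneg hn hn) h]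

/-- The operator of segment sums. -/
noncomputable def SJ (n : ℕ) : HH →ₗ[ℝ] BJ where
  toFun w := ⟨fun σ => segs n w σ, memℓp_infty ⟨(n + 1) * ‖w‖, by
    rintro _ ⟨σ, rfl⟩; exact norm_segs_le n w σ⟩⟩
  map_add' v w := by
    ext σ i
    exact dif_add n v w _
  map_smul' a w := by
    ext σ i
    exact dif_smul n a w _

lemma SJ_apply (n : ℕ) (w : HH) (σ : Sy) : SJ n w σ = segs n w σ := rfl

/-- The bound for arbitrary finite systems. -/
lemma sum_le_SJ (n : ℕ) (w : HH) {ι : Type} [Fintype ι] {S : ι → List ℕ × List ℕ}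
    (hS : IsSys S) : ∑ i, dif n w (S i) ^ 2 ≤ ‖SJ n w‖ ^ 2 := by
  let e := Fintype.equivFin ι
  let σ : Sy := ⟨Fintype.card ι, fun j => S (e.symm j), fun j => hS.1 _, fun i j hij =>
    hS.2 _ _ fun h => hij (e.symm.injective h)⟩
  have h1 : ∑ i, dif n w (S i) ^ 2 = ‖segs n w σ‖ ^ 2 := by
    rw [norm_segs_sq]
    exact (Equiv.sum_comp e.symm fun i => dif n w (S i) ^ 2).symm
  rw [h1, ← SJ_apply]
  have h2 : ‖SJ n w σ‖ ≤ ‖SJ n w‖ := lp.norm_apply_le_norm (by norm_num) (SJ n w) σ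
  gcongr

lemma SJ_le {n : ℕ} {w : HH} {C : ℝ}
    (h : ∀ (m : ℕ) (S : Fin m → List ℕ × List ℕ), IsSys S → ∑ i, dif n w (S i) ^ 2 ≤ C) :
    ‖SJ n w‖ ^ 2 ≤ C := by
  have hC : 0 ≤ C := by
    have := h 0 (fun i => ([], [])) ⟨fun i => i.elim0, fun i => i.elim0⟩
    simpa using this
  have h1 : ‖SJ n w‖ ≤ Real.sqrt C := by
    refine lp.norm_le_of_forall_le (Real.sqrt_nonneg _) fun σ => ?_
    refine Real.le_sqrt_of_sq_le ?_
    rw [SJ_apply, norm_segs_sq]
    exact h _ _ σ.2.2
  calc ‖SJ n w‖ ^ 2 ≤ (Real.sqrt C) ^ 2 := by gcongr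
    _ = C := Real.sq_sqrt hC

/-- The node `t` is counted in the segment sums. -/
def Cnt (n : ℕ) (t : List ℕ) : Prop := t ≠ [] ∧ t.length ≤ n

instance (n : ℕ) (t : List ℕ) : Decidable (Cnt n t) := by unfold Cnt; infer_instance

/-- The restriction to the nodes which are not counted. -/
noncomputable def RR (n : ℕ) : HH →ₗ[ℝ] HH where
  toFun w := ⟨fun t => if Cnt n t then 0 else w t, by
    have hm : Memℓp (fun t => ‖w t‖) 2 := memℓp_norm_iff.mpr (lp.memℓp w)
    refine hm.mono fun t => ?_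
    split_ifs
    · simp
    · exact le_rfl⟩
  map_add' v w := by
    ext t
    change (if Cnt n t then (0 : ℝ) else v t + w t) =
      (if Cnt n t then 0 else v t) + (if Cnt n t then 0 else w t)
    split_ifs <;> simp
  map_smul' a w := by
    ext t
    change (if Cnt n t then (0 : ℝ) else a * w t) = a * (if Cnt n t then 0 else w t)
    split_ifs <;> simp

lemma RR_apply (n : ℕ) (w : HH) (t : List ℕ) : RR n w t = if Cnt n t then 0 else w t := rfl

/-- The graph embedding. -/
noncomputable def AJ (n : ℕ) : HH →ₗ[ℝ] WithLp 2 (HH × BJ) :=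
  (WithLp.linearEquiv 2 ℝ (HH × BJ)).symm.toLinearMap.comp (LinearMap.prod (RR n) (SJ n))

/-- The renormed Hilbert space `Y n` (a James-tree space). -/
abbrev YJ (n : ℕ) : Type := LinearMap.range (AJ n)

/-- The natural map onto `Y n`. -/
noncomputable def toJ (n : ℕ) : HH →ₗ[ℝ] YJ n := (AJ n).rangeRestrict

lemma norm_toJ_sq (n : ℕ) (w : HH) : ‖toJ n w‖ ^ 2 = ‖RR n w‖ ^ 2 + ‖SJ n w‖ ^ 2 := by
  have h := WithLp.prod_norm_sq_eq_of_L2 (AJ n w)
  exact h

lemma toJ_surjective (n : ℕ) (y : YJ n) : ∃ w, toJ n w = y := by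
  obtain ⟨y, w, rfl⟩ := y
  exact ⟨w, rfl⟩

lemma dif_single (n : ℕ) (w : List ℕ → ℝ) (k : ℕ) (t : List ℕ) (h : t.length < n) :
    dif n w (t, k :: t) = w (k :: t) := by
  rw [dif, cum_cons, if_pos h]; ring

/-- The single nodes form a system. -/
lemma isSys_singles {ι : Type} {f : ι → List ℕ} (hf : Function.Injective f)
    (h0 : ∀ i, f i ≠ []) : IsSys fun i => ((f i).tail, f i) := by
  have hon : ∀ i u, On u ((f i).tail, f i) → u = f i := by
    intro i u hu
    cases hfi : f i with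
    | nil => exact absurd hfi (h0 i)
    | cons k t =>
      rw [hfi, On, List.tail_cons, List.suffix_cons_iff] at hu
      rcases hu with ⟨h1 | h1, h2⟩
      · exact h1
      · exact absurd h1 h2
  refine ⟨fun i => List.tail_suffix _, fun i j hij u hi hj => hij ?_⟩
  exact hf ((hon i u hi).symm.trans (hon j u hj))

lemma norm_le_toJ (n : ℕ) (w : HH) : ‖w‖ ≤ ‖toJ n w‖ := by
  refine le_of_sq_le_sq ?_ (norm_nonneg _)
  rw [norm_toJ_sq]
  refine hasSum_le_of_sum_le (HH_hasSum_sq w) fun s => ?_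
  rw [← sum_filter_add_sum_filter_not s (Cnt n)]
  have h1 : ∑ t ∈ s.filter (fun t => ¬ Cnt n t), w t ^ 2 ≤ ‖RR n w‖ ^ 2 := by
    refine le_trans (le_of_eq ?_) (sum_sq_le (RR n w) (s.filter fun t => ¬ Cnt n t))
    refine sum_congr rfl fun t ht => ?_
    rw [mem_filter] at ht
    rw [RR_apply, if_neg ht.2]
  have h2 : ∑ t ∈ s.filter (Cnt n), w t ^ 2 ≤ ‖SJ n w‖ ^ 2 := by
    have hc : ∀ i : {x // x ∈ s.filter (Cnt n)}, Cnt n i.1 := fun i => (mem_filter.1 i.2).2
    have h3 := sum_le_SJ n w (isSys_singles (f := fun i : {x // x ∈ s.filter (Cnt n)} => i.1)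
      Subtype.val_injective fun i => (hc i).1)
    refine le_trans (le_of_eq ?_) h3
    rw [← sum_coe_sort]
    refine sum_congr rfl fun i _ => ?_
    have hi := hc i
    obtain ⟨t, ht⟩ := i
    cases t with
    | nil => exact absurd rfl hi.1
    | cons k t =>
      rw [List.tail_cons, dif_single]
      have := hi.2
      rw [List.length_cons] at this
      omega
  linarith

lemma norm_RR_le (n : ℕ) (w : HH) : ‖RR n w‖ ^ 2 ≤ ‖w‖ ^ 2 :=
  norm_le_of_abs_le fun t => by
    rw [RR_apply]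
    split_ifs
    · rw [abs_zero]; exact abs_nonneg _
    · exact le_rfl

lemma norm_toJ_le (n : ℕ) (w : HH) : ‖toJ n w‖ ≤ (n + 1) * ‖w‖ := by
  refine le_of_sq_le_sq ?_ (by positivity)
  rw [norm_toJ_sq]
  have h1 := norm_RR_le n w
  have h2 : ‖SJ n w‖ ^ 2 ≤ n * ‖w‖ ^ 2 := SJ_le fun m S hS => sum_dif_sq_le n w hS
  have h3 := sq_nonneg ‖w‖
  have hn : (0 : ℝ) ≤ n := Nat.cast_nonneg n
  nlinarith [mul_nonneg hn h3, mul_nonneg (mul_nonneg hn hn) h3]

lemma toJ_injective (n : ℕ) : Function.Injective (toJ n) := by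
  rw [← LinearMap.ker_eq_bot, LinearMap.ker_eq_bot']
  intro w hw
  have := norm_le_toJ n w
  rw [hw, norm_zero] at this
  exact norm_le_zero_iff.mp this

/-- `Y n` is isomorphic to a Hilbert space. -/
noncomputable def cleJ (n : ℕ) : HH ≃L[ℝ] YJ n :=
  LinearEquiv.toContinuousLinearEquivOfBounds
    (LinearEquiv.ofBijective (toJ n) ⟨toJ_injective n, toJ_surjective n⟩) (n + 1) 1
    (norm_toJ_le n) (by
      intro y
      obtain ⟨w, rfl⟩ := toJ_surjective n y
      have : (LinearEquiv.ofBijective (toJ n) ⟨toJ_injective n, toJ_surjective n⟩).symm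
          (toJ n w) = w :=
        (LinearEquiv.ofBijective (toJ n) ⟨toJ_injective n, toJ_surjective n⟩).symm_apply_apply w
      rw [this, one_mul]
      exact norm_le_toJ n w)

lemma isReflexive_YJ (n : ℕ) : IsReflexive (YJ n) :=
  IsReflexive.of_cle (cleJ n).symm (isReflexive_of_hilbert HH)

/-- The dual space `X n`. -/
abbrev XJ (n : ℕ) : Type := StrongDual ℝ (YJ n)

lemma isReflexive_XJ (n : ℕ) : IsReflexive (XJ n) := (isReflexive_YJ n).dual

instance separableSpace_XJ (n : ℕ) : SeparableSpace (XJ n) := by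
  have : SeparableSpace HH := separableSpace_lp _
  have h1 : SeparableSpace (StrongDual ℝ HH) :=
    separableSpace_of_equiv (InnerProductSpace.toDual ℝ HH).toHomeomorph
  let e : StrongDual ℝ HH ≃L[ℝ] StrongDual ℝ (YJ n) :=
    (cleJ n).arrowCongr (ContinuousLinearEquiv.refl ℝ ℝ)
  exact separableSpace_of_equiv e.toHomeomorph

end Vale.Agent.P069.JT
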