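import Vale.Agent.P069.JT.Dual
import Vale.Agent.P069.JT.Defs
attribute [-instance] ProperSMul.toContinuousSMul IsTopologicalTorsor.toContinuousSMul IdemSemiring.toCanonicallyOrderedAdd IdemSemiring.toMulLeftMono IdemSemiring.toMulRightMono AddQuantale.instAddLeftMono AddQuantale.instAddRightMono Quantale.instMulLeftMono Quantale.instMulRightMono FiniteDimensional.rclike_to_real IsScalarTower.complexToReal FiniteDimensional.complexToReal

/-!
# `ℓ²`-sums, and the modulus of asymptotic uniform smoothness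
-/

open Filter Topology TopologicalSpace
open scoped ENNReal

namespace Vale.Agent.P069.JT

section lp

variable {X : ℕ → Type*} [∀ n, NormedAddCommGroup (X n)] [∀ n, NormedSpace ℝ (X n)]

theorem twoEst_sum_single {c : ℝ} (hc2 : c ≤ 2) (N : ℕ) (u : ∀ n, X n)
    (h : ∀ n, TwoEst c (u n)) :
    TwoEst c (∑ n ∈ Finset.range N, lp.single (E := X) 2 n (u n)) := by
  choose F hF hFy using h
  set U : lp X 2 := ∑ n ∈ Finset.range N, lp.single (E := X) 2 n (u n) with hU
  have hUn : ∀ n, U n = if n < N then u n else 0 := by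
    intro n
    rw [hU, lp.coeFn_sum, Finset.sum_apply]
    by_cases hn : n < N
    · rw [if_pos hn, Finset.sum_eq_single n]
      · exact lp.single_apply_self _ _ _
      · intro m _ hm
        exact lp.single_apply_ne _ _ _ hm.symm
      · intro h0
        exact (h0 (Finset.mem_range.mpr hn)).elim
    · rw [if_neg hn]
      refine Finset.sum_eq_zero fun m hm => ?_
      have : m < N := Finset.mem_range.mp hm
      exact lp.single_apply_ne _ _ _ (by omega)
  let g : lp X 2 →ₗ[ℝ] (∀ n : Fin N, X n ⧸ F n) :=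
    LinearMap.pi fun n => (F n).mkQ.comp (prj X n).toLinearMap
  have hker : ∀ y : lp X 2, y ∈ LinearMap.ker g ↔ ∀ n : Fin N, y n ∈ F n := by
    intro y
    rw [LinearMap.mem_ker]
    constructor
    · intro h0 n
      have h1 : g y n = 0 := by rw [h0]; rfl
      exact (Submodule.Quotient.mk_eq_zero (F n)).mp h1
    · intro h0
      ext n
      exact (Submodule.Quotient.mk_eq_zero (F n)).mpr (h0 n)
  have : ∀ n : Fin N, FiniteDimensional ℝ (X n ⧸ F n) := fun n => (hF n).2
  refine ⟨LinearMap.ker g, ⟨?_, finiteDimensional_quotient_of_ker_le g _ le_rfl⟩, ?_⟩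
  · have : (LinearMap.ker g : Set (lp X 2)) = ⋂ n : Fin N, (prj X n) ⁻¹' (F n : Set (X n)) := by
      ext y
      simp only [SetLike.mem_coe, Set.mem_iInter, Set.mem_preimage]
      exact hker y
    rw [this]
    exact isClosed_iInter fun n => (hF n).1.preimage (prj X n).continuous
  · intro y hy
    rw [hker] at hy
    have e1 : ∀ n, (U + y) n = U n + y n := fun _ => rfl
    have e2 : ∀ n, (U - y) n = U n - y n := fun _ => rfl
    constructor
    · have s1 := ((lp_hasSum_sq U).mul_left 2).add ((lp_hasSum_sq y).mul_left c)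
      have s2 := (lp_hasSum_sq (U + y)).add (lp_hasSum_sq (U - y))
      refine hasSum_le (fun n => ?_) s1 s2
      rw [e1, e2, hUn]
      by_cases hn : n < N
      · rw [if_pos hn]
        exact (hFy n (y n) (hy ⟨n, hn⟩)).1
      · rw [if_neg hn, zero_add, zero_sub, norm_neg, norm_zero]
        have := sq_nonneg ‖y n‖
        nlinarith
    · have s1 := (lp_hasSum_sq U).add (lp_hasSum_sq y)
      have s2 := lp_hasSum_sq (U + y)
      refine hasSum_le (fun n => ?_) s2 s1
      rw [e1, hUn]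
      by_cases hn : n < N
      · rw [if_pos hn]
        exact (hFy n (y n) (hy ⟨n, hn⟩)).2
      · rw [if_neg hn, zero_add, norm_zero]
        linarith [sq_nonneg ‖y n‖]

theorem dense_twoEst_lp {c : ℝ} (hc2 : c ≤ 2)
    (h : ∀ n, Dense {u : X n | TwoEst c u}) : Dense {u : lp X 2 | TwoEst c u} := by
  rw [Metric.dense_iff]
  intro z r hr
  have hz := (lp.hasSum_single (p := 2) (by norm_num) z).tendsto_sum_nat
  rw [Metric.tendsto_atTop] at hz
  obtain ⟨N, hN⟩ := hz (r / 2) (by linarith)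
  have hN := hN N le_rfl
  have hu : ∀ n, ∃ u : X n, TwoEst c u ∧ dist (z n) u < r / (2 * (N + 1)) := by
    intro n
    obtain ⟨u, hu1, hu2⟩ := Metric.dense_iff.mp (h n) (z n) (r / (2 * (N + 1))) (by positivity)
    exact ⟨u, hu2, by rwa [Metric.mem_ball, dist_comm] at hu1⟩
  choose u hu1 hu2 using hu
  refine ⟨∑ n ∈ Finset.range N, lp.single (E := X) 2 n (u n), ?_,
    twoEst_sum_single hc2 N u hu1⟩
  rw [Metric.mem_ball]
  have h1 : dist (∑ n ∈ Finset.range N, lp.single (E := X) 2 n (u n))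
      (∑ n ∈ Finset.range N, lp.single (E := X) 2 n (z n)) ≤ N * (r / (2 * (N + 1))) := by
    rw [dist_eq_norm, ← Finset.sum_sub_distrib]
    refine (norm_sum_le _ _).trans ?_
    have h2 : ∀ n ∈ Finset.range N, ‖lp.single (E := X) 2 n (u n) - lp.single (E := X) 2 n (z n)‖
        ≤ r / (2 * (N + 1)) := by
      intro n _
      rw [← lp.single_sub, lp.norm_single (by norm_num), ← dist_eq_norm, dist_comm]
      exact (hu2 n).le
    refine (Finset.sum_le_sum h2).trans ?_
    simp
  have h3 : (N : ℝ) * (r / (2 * (N + 1))) < r / 2 := by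
    have hpos : (0:ℝ) < (N:ℝ) + 1 := by positivity
    rw [show (N : ℝ) * (r / (2 * (N + 1))) = (r / 2) * (N / (N + 1)) by field_simp]
    have : (N : ℝ) / (N + 1) < 1 := by
      rw [div_lt_one hpos]; linarith
    have hr2 : 0 < r / 2 := by linarith
    nlinarith
  calc dist (∑ n ∈ Finset.range N, lp.single (E := X) 2 n (u n)) z
      ≤ dist (∑ n ∈ Finset.range N, lp.single (E := X) 2 n (u n))
        (∑ n ∈ Finset.range N, lp.single (E := X) 2 n (z n)) +
        dist (∑ n ∈ Finset.range N, lp.single (E := X) 2 n (z n)) z := dist_triangle _ _ _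
    _ < r := by linarith

end lp

section aus

variable {X : Type*} [NormedAddCommGroup X] [NormedSpace ℝ X]

theorem dense_twoAMUC_of {c : ℝ} (h : Dense {u : X | TwoEst c u}) :
    Dense {u : X | TwoAMUC c u} :=
  h.mono (by
    rintro u ⟨F, hF, hy⟩
    exact ⟨F, hF, fun y hyF => (hy y hyF).1⟩)

theorem ausModulus_le {c : ℝ} (hD : Dense {u : X | TwoEst c u}) {t : ℝ} (ht : 0 < t) :
    ausModulus (normSeminorm ℝ X) t ≤ ((Real.sqrt (1 + t ^ 2) - 1 : ℝ) : EReal) := by
  refine iSup_le fun x => ?_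
  have hx : ‖x.1‖ = 1 := x.2
  refine EReal.le_of_forall_lt_iff_le.1 fun r hr => ?_
  have hr' : Real.sqrt (1 + t ^ 2) - 1 < r := by exact_mod_cast hr
  set η : ℝ := (r - (Real.sqrt (1 + t ^ 2) - 1)) / 2 with hηdef
  have hη : 0 < η := by
    rw [hηdef]
    linarith
  obtain ⟨u, hu, hux⟩ := Metric.mem_closure_iff.1 (hD x.1) η hη
  obtain ⟨F, hF, hFu⟩ := hu
  refine iInf_le_of_le ⟨F, hF⟩ ?_
  refine iSup_le fun y => ?_
  have hyF : y.1 ∈ F := y.2.1
  have hy : ‖y.1‖ = 1 := y.2.2
  have h1 := (hFu (t • y.1) (F.smul_mem t hyF)).2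
  have h2 : ‖t • y.1‖ = t := by rw [norm_smul, hy, Real.norm_of_nonneg ht.le, mul_one]
  rw [h2] at h1
  have hxu : ‖x.1 - u‖ < η := by rwa [dist_eq_norm] at hux
  have hun : ‖u‖ ≤ 1 + η := by
    have := norm_sub_norm_le u x.1
    rw [hx, norm_sub_rev] at this
    linarith
  have hs1 : 1 ≤ Real.sqrt (1 + t ^ 2) := by
    rw [Real.one_le_sqrt]
    nlinarith [sq_nonneg t]
  have hs2 : Real.sqrt (1 + t ^ 2) ^ 2 = 1 + t ^ 2 := Real.sq_sqrt (by positivity)
  have h3 : ‖u + t • y.1‖ ≤ Real.sqrt (1 + t ^ 2) + η := by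
    refine le_of_sq_le_sq ?_ (by positivity)
    have h4 : ‖u‖ ^ 2 ≤ (1 + η) ^ 2 := pow_le_pow_left₀ (norm_nonneg _) hun 2
    nlinarith
  have h5 : ‖x.1 + t • y.1‖ ≤ ‖u + t • y.1‖ + η := by
    have : x.1 + t • y.1 = (u + t • y.1) + (x.1 - u) := by abel
    rw [this]
    refine (norm_add_le _ _).trans ?_
    linarith
  have h6 : ‖x.1 + t • y.1‖ - 1 ≤ r := by
    rw [hηdef] at h3 h5
    linarith
  have h' : ((‖x.1 + t • y.1‖ - 1 : ℝ) : EReal) ≤ ((r : ℝ) : EReal) := by
    exact_mod_cast h6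
  exact h'

theorem isAUS_of {c : ℝ} (hD : Dense {u : X | TwoEst c u}) : IsAUS (normSeminorm ℝ X) := by
  intro ε hε
  refine ⟨ε, hε, fun t ht htε => (ausModulus_le hD ht).trans ?_⟩
  have h1 : Real.sqrt (1 + t ^ 2) ≤ 1 + t * t := by
    rw [Real.sqrt_le_left (by positivity)]
    nlinarith [mul_pos ht ht, mul_pos (mul_pos ht ht) (mul_pos ht ht)]
  have h2 : Real.sqrt (1 + t ^ 2) - 1 ≤ ε * t := by
    have := mul_le_mul_of_nonneg_right htε.le ht.le
    linarith
  exact_mod_cast h2

end aus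

end Vale.Agent.P069.JT
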