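import Vale.Agent.P069.JT.Dual
import Vale.Agent.P069.H778.Tree
attribute [-instance] ProperSMul.toContinuousSMul IsTopologicalTorsor.toContinuousSMul IdemSemiring.toCanonicallyOrderedAdd IdemSemiring.toMulLeftMono IdemSemiring.toMulRightMono AddQuantale.instAddLeftMono AddQuantale.instAddRightMono Quantale.instMulLeftMono Quantale.instMulRightMono FiniteDimensional.rclike_to_real IsScalarTower.complexToReal FiniteDimensional.complexToReal

/-!
# Trees in the dual of the James-tree space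
-/

namespace Vale.Agent.P069.JT

open Filter Topology Finset H778
open scoped ENNReal

/-- Evaluation of the cumulative sum as a functional. -/
noncomputable def evj (n : ℕ) (t : List ℕ) : XJ n :=
  LinearMap.mkContinuous
    ((LinearMap.mk ⟨fun w : HH => cum n w t, fun v w => cum_add n v w t⟩
      (fun a w => cum_smul n a w t) : HH →ₗ[ℝ] ℝ).comp
      (cleJ n).symm.toLinearEquiv.toLinearMap) 1 (by
      intro y
      obtain ⟨w, rfl⟩ := toJ_surjective n y
      have h1 : (cleJ n).symm (toJ n w) = w := (cleJ n).symm_apply_apply w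
      change |cum n ((cleJ n).symm (toJ n w)) t| ≤ 1 * ‖toJ n w‖
      rw [h1, one_mul]
      have h2 := abs_dif_le n w (p := ([], t)) List.nil_suffix
      rw [dif] at h2
      simp only [cum_nil, sub_zero] at h2
      refine h2.trans (le_of_sq_le_sq ?_ (norm_nonneg _))
      rw [norm_toJ_sq]
      linarith [sq_nonneg ‖RR n w‖])

lemma evj_apply (n : ℕ) (t : List ℕ) (w : HH) : evj n t (toJ n w) = cum n w t := by
  have h1 : (cleJ n).symm (toJ n w) = w := (cleJ n).symm_apply_apply w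
  change cum n ((cleJ n).symm (toJ n w)) t = cum n w t
  rw [h1]

lemma norm_evj_le (n : ℕ) (t : List ℕ) : ‖evj n t‖ ≤ 1 :=
  LinearMap.mkContinuous_norm_le _ zero_le_one _

lemma sum_nodes_ee (s : List ℕ) (E : Finset (List ℕ)) :
    ∑ u ∈ E, ee s u = if s ∈ E then 1 else 0 := by
  by_cases h : s ∈ E
  · rw [if_pos h, sum_eq_single s, ee_self]
    · intro u _ hu
      exact ee_ne hu
    · intro h'
      exact absurd h h'
  · rw [if_neg h]
    refine sum_eq_zero fun u hu => ee_ne fun h' => h (h' ▸ hu)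

lemma dif_ee (n : ℕ) (s : List ℕ) {p : List ℕ × List ℕ} (hp : p.1 <:+ p.2) :
    dif n (ee s) p = if s ∈ nodes n p then 1 else 0 := by
  obtain ⟨a, b⟩ := p
  obtain ⟨l, hl⟩ := hp
  change l ++ a = b at hl
  subst hl
  rw [dif_eq_sum, sum_nodes_ee]

lemma sum_ite_nodes_le (n : ℕ) (s : List ℕ) {ι : Type} [Fintype ι] {S : ι → List ℕ × List ℕ}
    (hS : IsSys S) : ∑ i, (if s ∈ nodes n (S i) then (1 : ℝ) else 0) ≤ 1 := by
  classical
  by_cases h : ∃ i, s ∈ nodes n (S i)
  · obtain ⟨i, hi⟩ := h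
    rw [sum_eq_single i]
    · rw [if_pos hi]
    · intro j _ hj
      rw [if_neg]
      intro h2
      exact hS.2 j i hj s (mem_nodes.1 h2).1 (mem_nodes.1 hi).1
    · intro h2
      exact absurd (mem_univ i) h2
  · push Not at h
    rw [sum_eq_zero fun i _ => if_neg (h i)]
    exact zero_le_one

lemma norm_SJ_ee_sq_le (n : ℕ) (s : List ℕ) : ‖SJ n (ee s)‖ ^ 2 ≤ 1 := by
  refine SJ_le fun m S hS => ?_
  refine le_trans (le_of_eq ?_) (sum_ite_nodes_le n s hS)
  refine sum_congr rfl fun i _ => ?_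
  rw [dif_ee n s (hS.1 i)]
  split_ifs <;> norm_num

lemma norm_SJ_ee_sub_sq_le (n : ℕ) (p q : List ℕ) : ‖SJ n (ee p - ee q)‖ ^ 2 ≤ 2 := by
  refine SJ_le fun m S hS => ?_
  have h1 := sum_ite_nodes_le n p hS
  have h2 := sum_ite_nodes_le n q hS
  have h3 : ∑ i, dif n (ee p - ee q : HH) (S i) ^ 2 ≤
      ∑ i, ((if p ∈ nodes n (S i) then (1 : ℝ) else 0) + if q ∈ nodes n (S i) then 1 else 0) := by
    refine sum_le_sum fun i _ => ?_
    have e : dif n (ee p - ee q : HH) (S i) = dif n (ee p) (S i) - dif n (ee q) (S i) := by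
      have e1 : ∀ t, cum n (ee p - ee q : HH) t = cum n (ee p) t - cum n (ee q) t := by
        intro t
        have h3 : SS n (ee p - ee q) t = (SS n (ee p) - SS n (ee q)) t := by rw [map_sub]
        exact h3
      rw [dif, dif, dif, e1, e1]
      ring
    rw [e, dif_ee n p (hS.1 i), dif_ee n q (hS.1 i)]
    split_ifs <;> norm_num
  rw [sum_add_distrib] at h3
  linarith

lemma RR_ee_of_cnt {n : ℕ} {s : List ℕ} (h : Cnt n s) : RR n (ee s) = 0 := by
  ext t
  rw [RR_apply]
  by_cases ht : Cnt n t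
  · rw [if_pos ht]; rfl
  · rw [if_neg ht, ee_ne]
    · rfl
    · rintro rfl
      exact ht h

lemma norm_toJ_ee_le {n : ℕ} {s : List ℕ} (h : Cnt n s) : ‖toJ n (ee s)‖ ≤ 1 := by
  refine le_of_sq_le_sq ?_ zero_le_one
  rw [norm_toJ_sq, RR_ee_of_cnt h, norm_zero]
  have := norm_SJ_ee_sq_le n s
  linarith

lemma norm_toJ_ee_sub_le {n : ℕ} {p q : List ℕ} (hp : Cnt n p) (hq : Cnt n q) :
    ‖toJ n (ee p - ee q)‖ ≤ Real.sqrt 2 := by
  refine Real.le_sqrt_of_sq_le ?_
  rw [norm_toJ_sq, map_sub, RR_ee_of_cnt hp, RR_ee_of_cnt hq, sub_zero, norm_zero]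
  have := norm_SJ_ee_sub_sq_le n p q
  linarith

theorem goodTree_XJ (n : ℕ) : GoodTree (XJ n) 1 n := by
  have hdiff : ∀ t : List ℕ, t.length < n → ∀ i : ℕ, ∀ w : HH,
      (evj n (i :: t) - evj n t) (toJ n w) = w (i :: t) := by
    intro t ht i w
    rw [sub_apply, evj_apply, evj_apply, cum_cons, if_pos ht]
    ring
  refine ⟨evj n, fun t _ => norm_evj_le n t, fun t ht i => ?_, fun t ht f => ?_⟩
  · have h1 := (evj n (i :: t) - evj n t).le_opNorm (toJ n (ee (i :: t)))
    rw [hdiff t ht, ee_self, norm_one] at h1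
    have h2 := norm_toJ_ee_le (n := n) (s := i :: t) ⟨List.cons_ne_nil _ _, by
      rw [List.length_cons]; omega⟩
    have h3 : ‖evj n (i :: t) - evj n t‖ * ‖toJ n (ee (i :: t))‖ ≤
        ‖evj n (i :: t) - evj n t‖ * 1 := by gcongr
    linarith
  · obtain ⟨y, rfl⟩ := isReflexive_YJ n f
    obtain ⟨w, rfl⟩ := toJ_surjective n y
    have h1 : ∀ i : ℕ, (NormedSpace.inclusionInDoubleDual ℝ (YJ n) (toJ n w))
        (evj n (i :: t) - evj n t) = w (i :: t) := fun i => by
      rw [NormedSpace.dual_def, hdiff t ht]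
    simp_rw [h1]
    have hs : Summable fun s : List ℕ => ‖w s‖ ^ (2 : ℝ≥0∞).toReal :=
      (lp.memℓp w).summable (by norm_num)
    have hs2 : Summable fun s : List ℕ => (w s) ^ 2 := by simpa using hs
    have hs3 : Summable fun i : ℕ => (w (i :: t)) ^ 2 :=
      hs2.comp_injective (i := fun i : ℕ => i :: t) (fun a b h => (List.cons.inj h).1)
    have h4 := hs3.tendsto_atTop_zero
    have h5 : Tendsto (fun i : ℕ => Real.sqrt ((w (i :: t)) ^ 2)) atTop (𝓝 (Real.sqrt 0)) :=
      (Real.continuous_sqrt.tendsto 0).comp h4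
    simp_rw [Real.sqrt_sq_eq_abs, Real.sqrt_zero] at h5
    exact (tendsto_zero_iff_abs_tendsto_zero _).mpr h5

/-- The embedding of the tree into `XJ n`. -/
noncomputable def FJ (n : ℕ) : List ℕ → XJ n
  | [] => 0
  | k :: t => FJ n t + evj n (k :: t)

lemma FJ_cons (n k : ℕ) (t : List ℕ) : FJ n (k :: t) = FJ n t + evj n (k :: t) := rfl

lemma FJ_apply_of_not_suffix (n : ℕ) {p u : List ℕ} (h : ¬ p <:+ u) :
    FJ n u (toJ n (ee p)) = 0 := by
  induction u with
  | nil => rfl
  | cons k u ih =>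
    rw [FJ_cons, add_apply, ih fun h' => h (h'.trans (List.suffix_cons k u)), evj_apply,
      cum_ee_of_not_suffix n h, zero_add]

lemma FJ_apply_append (n c : ℕ) (r l : List ℕ) (h : (l ++ c :: r).length ≤ n) :
    FJ n (l ++ c :: r) (toJ n (ee (c :: r))) = l.length + 1 := by
  induction l with
  | nil =>
    rw [List.nil_append, FJ_cons, add_apply, FJ_apply_of_not_suffix, evj_apply]
    · have := cum_ee_append n c r [] h
      rw [List.nil_append] at this
      rw [this]; simp
    · intro h'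
      have := h'.length_le
      simp at this
  | cons k l ih =>
    have h2 := cum_ee_append n c r (k :: l) h
    rw [List.cons_append] at h2
    rw [List.cons_append, FJ_cons, add_apply, ih (by simp at h ⊢; omega), evj_apply, h2]
    simp

lemma le_of_test {n : ℕ} (φ : XJ n) {v : YJ n} (hv : ‖v‖ ≤ Real.sqrt 2) {a : ℝ}
    (ha : φ v = a) : a ≤ Real.sqrt 2 * ‖φ‖ := by
  rw [← ha]
  calc φ v ≤ ‖φ v‖ := le_abs_self _
    _ ≤ ‖φ‖ * ‖v‖ := φ.le_opNorm v
    _ ≤ ‖φ‖ * Real.sqrt 2 := by gcongr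
    _ = _ := mul_comm _ _

lemma norm_revJ {n : ℕ} (φ ψ : XJ n) : ‖φ - ψ‖ = ‖ψ - φ‖ := norm_sub_rev φ ψ

lemma FJ_lower (n : ℕ) (r s' t' : List ℕ) (hs : (s' ++ r).length ≤ n)
    (ht : (t' ++ r).length ≤ n) (h : ∀ c s'' t'', s' = s'' ++ [c] → t' ≠ t'' ++ [c]) :
    (s'.length + t'.length : ℝ) ≤ Real.sqrt 2 * ‖FJ n (s' ++ r) - FJ n (t' ++ r)‖ := by
  have hone : (1 : ℝ) ≤ Real.sqrt 2 := by
    rw [Real.one_le_sqrt]; norm_num
  have hcnt : ∀ (c : ℕ) (l : List ℕ), (l ++ c :: r).length ≤ n → Cnt n (c :: r) := by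
    intro c l h
    refine ⟨List.cons_ne_nil _ _, ?_⟩
    rw [List.length_append] at h
    omega
  have hsuf : ∀ (c : ℕ) (l : List ℕ), c :: r <:+ l ++ r → ∃ l', l = l' ++ [c] := by
    rintro c l ⟨l', hl'⟩
    refine ⟨l', ?_⟩
    have : (l' ++ [c]) ++ r = l ++ r := by simpa using hl'
    exact (List.append_cancel_right this).symm
  have happ : ∀ (c : ℕ) (l : List ℕ), (l ++ [c]) ++ r = l ++ c :: r := fun c l => by simp
  rcases List.eq_nil_or_concat' s' with hs' | ⟨s'', c, hs'⟩
  · subst hs'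
    rcases List.eq_nil_or_concat' t' with ht' | ⟨t'', d, ht'⟩
    · subst ht'
      rw [List.length_nil, Nat.cast_zero, add_zero]
      positivity
    · subst ht'
      rw [happ] at ht ⊢
      rw [norm_revJ]
      refine le_of_test _ ((norm_toJ_ee_le (hcnt d t'' ht)).trans hone) ?_
      rw [sub_apply, FJ_apply_append n d r t'' ht, FJ_apply_of_not_suffix]
      · simp
      · intro h'
        have := h'.length_le
        simp at this
  · rcases List.eq_nil_or_concat' t' with ht' | ⟨t'', d, ht'⟩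
    · subst ht'
      subst hs'
      rw [happ] at hs ⊢
      refine le_of_test _ ((norm_toJ_ee_le (hcnt c s'' hs)).trans hone) ?_
      rw [sub_apply, FJ_apply_append n c r s'' hs, FJ_apply_of_not_suffix]
      · simp
      · intro h'
        have := h'.length_le
        simp at this
    · have hcd : c ≠ d := by
        rintro rfl
        exact h c s'' t'' hs' ht'
      have n1 : ¬ d :: r <:+ s' ++ r := fun h' => by
        obtain ⟨l', hl'⟩ := hsuf d s' h'
        rw [hs'] at hl'
        have := List.append_inj_right' hl' rfl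
        exact hcd (by simpa using this)
      have n2 : ¬ c :: r <:+ t' ++ r := fun h' => by
        obtain ⟨l', hl'⟩ := hsuf c t' h'
        rw [ht'] at hl'
        have := List.append_inj_right' hl' rfl
        exact hcd (by simpa using this.symm)
      have e1 := FJ_apply_of_not_suffix n n1
      have e2 := FJ_apply_of_not_suffix n n2
      subst hs'
      subst ht'
      rw [happ] at hs ht e1 e2 ⊢
      rw [happ]
      refine le_of_test _ (norm_toJ_ee_sub_le (p := c :: r) (q := d :: r)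
        (hcnt c s'' hs) (hcnt d t'' ht)) ?_
      rw [map_sub, map_sub, sub_apply, sub_apply, FJ_apply_append n c r s'' hs, e1, e2,
        FJ_apply_append n d r t'' ht]
      simp only [List.length_append, List.length_singleton]
      push_cast
      ring

theorem embeds_tree_J (n : ℕ) : EmbedsWith (tree n) (lp XJ 2) (Real.sqrt 2) := by
  have h3 : 0 < Real.sqrt 2 := Real.sqrt_pos.2 (by norm_num)
  have hiso : ∀ s t : List ℕ, ‖(lp.single 2 n (FJ n s) : lp XJ 2) -
      lp.single 2 n (FJ n t)‖ = ‖FJ n s - FJ n t‖ := by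
    intro s t
    rw [← lp.single_sub, lp.norm_single (by norm_num)]
  have hstep : ∀ (i : ℕ) (t : List ℕ), ‖(lp.single 2 n (FJ n (i :: t)) : lp XJ 2) -
      lp.single 2 n (FJ n t)‖ ≤ 1 := by
    intro i t
    rw [hiso, FJ_cons, add_sub_cancel_left]
    exact norm_evj_le _ _
  refine ⟨fun t => lp.single 2 n (FJ n t.1), (Real.sqrt 2)⁻¹, inv_pos.2 h3, fun s t => ⟨?_, ?_⟩⟩
  · rw [hiso]
    obtain ⟨s, hs⟩ := s
    obtain ⟨t, ht⟩ := t
    obtain ⟨r, s', t', rfl, rfl, h⟩ := exists_lcs s t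
    have h1 := FJ_lower n r s' t' hs ht h
    have h2 : ((tree n).E.dist ⟨s' ++ r, hs⟩ ⟨t' ++ r, ht⟩ : ℝ) ≤ s'.length + t'.length := by
      exact_mod_cast tree_dist_le s' t' r hs ht
    rw [inv_mul_le_iff₀ h3]
    exact h2.trans h1
  · rw [← mul_assoc, mul_inv_cancel₀ h3.ne', one_mul]
    obtain ⟨p, hp⟩ := (preconnected_tree n s t).exists_walk_length_eq_dist
    rw [← hp]
    exact walk_upper (fun t => (lp.single 2 n (FJ n t) : lp XJ 2)) hstep p

end Vale.Agent.P069.JT
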